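import Vale.Agent.Lib.P235.Induct

namespace Vale.Agent.P235

section
variable {V : Type*} {H : SimpleGraph V} {D : V → V → ℝ} {P : Set V → Prop}

/-- Attaching a rooted structure anywhere in another one. -/
theorem Rooted.attach (hD : IsPM D) {Y₁ X : Set V} (h₁ : Rooted H D P Y₁ X) :
    ∀ (Y₂ X₂ : Set V) (a b : V), Rooted H D P Y₂ X₂ → a ∈ Y₁ → b ∈ Y₁ → (a = b ∨ H.Adj a b) →
      a ∈ X₂ → b ∈ X₂ → (∀ z, z ∈ Y₁ → z ∈ Y₂ → z = a ∨ z = b) →
      (∀ x ∈ Y₁, ∀ y ∈ Y₂, min (D x a + D a y) (D x b + D b y) ≤ D x y) →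
      (∀ x ∈ Y₁, ∀ y ∈ Y₂, x ∉ Y₂ → y ∉ Y₁ → ¬ H.Adj x y) →
      Rooted H D P (Y₁ ∪ Y₂) X := by
  induction h₁ with
  | base X hX =>
    intro Y₂ X₂ a b h₂ ha hb _ haX₂ hbX₂ hab hsep hadj
    exact Rooted.step X Y₂ X X₂ a b (Rooted.base X hX) h₂ ha hb haX₂ hbX₂ hab hsep hadj
  | step Z₁ Z₂ X X₂' a' b' g₁ g₂ ha'X hb'X ha'X₂ hb'X₂ hab' hsep' hadj' ih₁ ih₂ =>
    intro Y₂ X₂ a b h₂ ha hb hadjab haX₂ hbX₂ hab hsep hadj
    have haY₂ := h₂.subset haX₂
    have hbY₂ := h₂.subset hbX₂
    have ha'Z₁ := g₁.subset ha'X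
    have hb'Z₁ := g₁.subset hb'X
    have ha'Z₂ := g₂.subset ha'X₂
    have hb'Z₂ := g₂.subset hb'X₂
    have hcase : (a ∈ Z₁ ∧ b ∈ Z₁) ∨ (a ∈ Z₂ ∧ b ∈ Z₂) := by
      rcases hadjab with rfl | hadjab
      · rcases ha with h | h
        · exact Or.inl ⟨h, h⟩
        · exact Or.inr ⟨h, h⟩
      · by_cases h1 : a ∈ Z₁
        · by_cases h2 : b ∈ Z₁
          · exact Or.inl ⟨h1, h2⟩
          · have hb2 : b ∈ Z₂ := hb.resolve_left h2
            by_cases h3 : a ∈ Z₂
            · exact Or.inr ⟨h3, hb2⟩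
            · exact absurd hadjab (hadj' a h1 b hb2 h3 h2)
        · have ha2 : a ∈ Z₂ := ha.resolve_left h1
          by_cases h2 : b ∈ Z₂
          · exact Or.inr ⟨ha2, h2⟩
          · have hb1 : b ∈ Z₁ := hb.resolve_right h2
            exact absurd hadjab.symm (hadj' b hb1 a ha2 h2 h1)
    rcases hcase with ⟨ha1, hb1⟩ | ⟨ha2, hb2⟩
    · -- attach to the root part
      have r1 := ih₁ Y₂ X₂ a b h₂ ha1 hb1 hadjab haX₂ hbX₂
        (fun z hz hz' => hab z (Or.inl hz) hz')
        (fun x hx y hy => hsep x (Or.inl hx) y hy)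
        (fun x hx y hy hx' hy' => by
          by_cases hyZ : y ∈ Z₂
          · exfalso
            rcases hab y (Or.inr hyZ) hy with h | h
            · exact hy' (h ▸ ha1)
            · exact hy' (h ▸ hb1)
          · exact hadj x (Or.inl hx) y hy hx' (fun h => h.elim hy' hyZ))
      have r2 := Rooted.step (Z₁ ∪ Y₂) Z₂ X X₂' a' b' r1 g₂ ha'X hb'X ha'X₂ hb'X₂ ?_ ?_ ?_
      · have e : Z₁ ∪ Z₂ ∪ Y₂ = Z₁ ∪ Y₂ ∪ Z₂ := by
          ext z; simp only [Set.mem_union]; tauto
        rw [e]; exact r2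
      · rintro z (hz | hz) hz'
        · exact hab' z hz hz'
        · rcases hab z (Or.inr hz') hz with h | h
          · exact hab' z (h ▸ ha1) hz'
          · exact hab' z (h ▸ hb1) hz'
      · rintro x (hx | hx) y hy
        · exact hsep' x hx y hy
        · have k := hsep y (Or.inr hy) x hx
          have s1 := hsep' a ha1 y hy
          have s2 := hsep' b hb1 y hy
          have q1 := hD.tri x a a'
          have q2 := hD.tri x a b'
          have q3 := hD.tri x b a'
          have q4 := hD.tri x b b'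
          have y1 := hD.symm y x
          have y2 := hD.symm y a
          have y3 := hD.symm y b
          have y4 := hD.symm a x
          have y5 := hD.symm b x
          rcases min_le_iff.mp k with k | k
          · rcases min_le_iff.mp s1 with s | s
            · exact min_le_of_left_le (by linarith)
            · exact min_le_of_right_le (by linarith)
          · rcases min_le_iff.mp s2 with s | s
            · exact min_le_of_left_le (by linarith)
            · exact min_le_of_right_le (by linarith)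
      · rintro x (hx | hx) y hy hx' hy'
        · exact hadj' x hx y hy hx' (fun h => hy' (Or.inl h))
        · intro hA
          by_cases hx1 : x ∈ Z₁
          · exact hadj' x hx1 y hy hx' (fun h => hy' (Or.inl h)) hA
          · exact hadj y (Or.inr hy) x hx (fun h => hy' (Or.inr h))
              (fun h => h.elim hx1 hx') hA.symm
    · -- attach to the child part
      have r1 := ih₂ Y₂ X₂ a b h₂ ha2 hb2 hadjab haX₂ hbX₂
        (fun z hz hz' => hab z (Or.inr hz) hz')
        (fun x hx y hy => hsep x (Or.inr hx) y hy)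
        (fun x hx y hy hx' hy' => by
          by_cases hyZ : y ∈ Z₁
          · exfalso
            rcases hab y (Or.inl hyZ) hy with h | h
            · exact hy' (h ▸ ha2)
            · exact hy' (h ▸ hb2)
          · exact hadj x (Or.inr hx) y hy hx' (fun h => h.elim hyZ hy'))
      have r2 := Rooted.step Z₁ (Z₂ ∪ Y₂) X X₂' a' b' g₁ r1 ha'X hb'X ha'X₂ hb'X₂ ?_ ?_ ?_
      · have e : Z₁ ∪ Z₂ ∪ Y₂ = Z₁ ∪ (Z₂ ∪ Y₂) := by
          ext z; simp only [Set.mem_union]; tauto
        rw [e]; exact r2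
      · rintro z hz (hz' | hz')
        · exact hab' z hz hz'
        · rcases hab z (Or.inl hz) hz' with h | h
          · exact hab' z hz (h ▸ ha2)
          · exact hab' z hz (h ▸ hb2)
      · rintro x hx y (hy | hy)
        · exact hsep' x hx y hy
        · have k := hsep x (Or.inl hx) y hy
          have s1 := hsep' x hx a ha2
          have s2 := hsep' x hx b hb2
          have q1 := hD.tri a' a y
          have q2 := hD.tri b' a y
          have q3 := hD.tri a' b y
          have q4 := hD.tri b' b y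
          rcases min_le_iff.mp k with k | k
          · rcases min_le_iff.mp s1 with s | s
            · exact min_le_of_left_le (by linarith)
            · exact min_le_of_right_le (by linarith)
          · rcases min_le_iff.mp s2 with s | s
            · exact min_le_of_left_le (by linarith)
            · exact min_le_of_right_le (by linarith)
      · rintro x hx y (hy | hy) hx' hy'
        · exact hadj' x hx y hy (fun h => hx' (Or.inl h)) hy'
        · intro hA
          by_cases hy1 : y ∈ Z₂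
          · exact hadj' x hx y hy1 (fun h => hx' (Or.inl h)) hy' hA
          · exact hadj x (Or.inl hx) y hy (fun h => hx' (Or.inr h))
              (fun h => h.elim hy' hy1) hA

/-- Being Lipschitz along the edges inside `Y` implies being Lipschitz on `Y`. -/
def EdgeReal (H : SimpleGraph V) (D : V → V → ℝ) (Y : Set V) : Prop :=
  ∀ f : V → ℝ, (∀ x ∈ Y, ∀ y ∈ Y, H.Adj x y → f y - f x ≤ D x y) →
    ∀ x ∈ Y, ∀ y ∈ Y, f y - f x ≤ D x y

/-- Extension of a Lipschitz function from one side of a gluing to the other. -/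
theorem extend_aux (hD : IsPM D) {A B : Set V} {u v : V}
    (hAB : A ∩ B = {u, v}) (huv : u = v ∨ H.Adj u v)
    (hadj : ∀ a ∈ A \ B, ∀ b ∈ B \ A, ¬ H.Adj a b) (f : V → ℝ)
    (hf : ∀ x ∈ A, ∀ y ∈ A, H.Adj x y → f y - f x ≤ D x y) :
    ∃ g : V → ℝ, (∀ x ∈ A, g x = f x) ∧ (∀ x ∈ B, g x = min (f u + D u x) (f v + D v x)) ∧
      (∀ x ∈ A ∪ B, ∀ y ∈ A ∪ B, H.Adj x y → g y - g x ≤ D x y) := by
  classical
  have hu : u ∈ A ∩ B := by rw [hAB]; simp
  have hv : v ∈ A ∩ B := by rw [hAB]; simp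
  have huv1 : f v - f u ≤ D u v := by
    rcases huv with h | h
    · rw [← h, hD.self]; linarith
    · exact hf u hu.1 v hv.1 h
  have huv2 : f u - f v ≤ D v u := by
    rcases huv with h | h
    · rw [← h, hD.self]; linarith
    · exact hf v hv.1 u hu.1 h.symm
  set g : V → ℝ := fun x => if x ∈ A then f x else min (f u + D u x) (f v + D v x) with hg
  have gA : ∀ x ∈ A, g x = f x := fun x hx => by simp [hg, hx]
  have gB : ∀ x ∈ B, g x = min (f u + D u x) (f v + D v x) := by
    intro x hx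
    by_cases hxA : x ∈ A
    · rw [gA x hxA]
      have : x ∈ ({u, v} : Set V) := by rw [← hAB]; exact ⟨hxA, hx⟩
      rcases this with h | h
      · rw [h, hD.self, add_zero]
        exact (min_eq_left (by linarith)).symm
      · have h' : x = v := h
        rw [h', hD.self, add_zero]
        exact (min_eq_right (by linarith)).symm
    · simp [hg, hxA]
  refine ⟨g, gA, gB, ?_⟩
  have inB : ∀ x ∈ B, ∀ y ∈ B, g y - g x ≤ D x y := by
    intro x hx y hy
    rw [gB x hx, gB y hy]
    have h1 := hD.tri u x y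
    have h2 := hD.tri v x y
    rcases min_cases (f u + D u x) (f v + D v x) with ⟨e, e'⟩ | ⟨e, e'⟩
    · rw [e]
      have := min_le_left (f u + D u y) (f v + D v y)
      linarith
    · rw [e]
      have := min_le_right (f u + D u y) (f v + D v y)
      linarith
  intro x hx y hy hxy
  by_cases hxA : x ∈ A
  · by_cases hyA : y ∈ A
    · rw [gA x hxA, gA y hyA]; exact hf x hxA y hyA hxy
    · have hyB : y ∈ B := hy.resolve_left hyA
      by_cases hxB : x ∈ B
      · exact inB x hxB y hyB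
      · exact absurd hxy (hadj x ⟨hxA, hxB⟩ y ⟨hyB, hyA⟩)
  · have hxB : x ∈ B := hx.resolve_left hxA
    by_cases hyB : y ∈ B
    · exact inB x hxB y hyB
    · have hyA : y ∈ A := hy.resolve_right hyB
      exact absurd hxy.symm (hadj y ⟨hyA, hyB⟩ x ⟨hxB, hxA⟩)

theorem EdgeReal.left (hD : IsPM D) {A B : Set V} {u v : V} (h : EdgeReal H D (A ∪ B))
    (hAB : A ∩ B = {u, v}) (huv : u = v ∨ H.Adj u v)
    (hadj : ∀ a ∈ A \ B, ∀ b ∈ B \ A, ¬ H.Adj a b) : EdgeReal H D A := by
  intro f hf x hx y hy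
  obtain ⟨g, gA, gB, hg⟩ := extend_aux hD hAB huv hadj f hf
  have := h g hg x (Or.inl hx) y (Or.inl hy)
  rw [gA x hx, gA y hy] at this
  exact this

theorem EdgeReal.sep (hD : IsPM D) {A B : Set V} {u v : V} (h : EdgeReal H D (A ∪ B))
    (hAB : A ∩ B = {u, v}) (huv : u = v ∨ H.Adj u v)
    (hadj : ∀ a ∈ A \ B, ∀ b ∈ B \ A, ¬ H.Adj a b) :
    ∀ x ∈ A, ∀ y ∈ B, min (D x u + D u y) (D x v + D v y) ≤ D x y := by
  intro x hx y hy
  obtain ⟨g, gA, gB, hg⟩ := extend_aux hD hAB huv hadj (fun z => D x z)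
    (fun p _ q _ _ => by have := hD.tri x p q; linarith)
  have := h g hg x (Or.inl hx) y (Or.inr hy)
  rw [gA x hx, gB y hy] at this
  rw [hD.self, sub_zero] at this
  exact this

/-- Graphs glued from pieces along vertices and edges. -/
inductive Glued (H : SimpleGraph V) (Q : Set V → Prop) : Set V → Prop
  | piece (X : Set V) (hX : Q X) : Glued H Q X
  | glue (A B : Set V) (u v : V) (hA : Glued H Q A) (hB : Glued H Q B) (hAB : A ∩ B = {u, v})
      (huv : u = v ∨ H.Adj u v) (hadj : ∀ a ∈ A \ B, ∀ b ∈ B \ A, ¬ H.Adj a b) :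
      Glued H Q (A ∪ B)

theorem Glued.rooted (hD : IsPM D) {Q : Set V → Prop} (hQ : ∀ X, Q X → EdgeReal H D X → P X)
    {Y : Set V} (h : Glued H Q Y) (hY : EdgeReal H D Y) :
    ∀ u ∈ Y, ∀ v ∈ Y, (u = v ∨ H.Adj u v) → ∃ X, u ∈ X ∧ v ∈ X ∧ Rooted H D P Y X := by
  induction h with
  | piece X hX =>
    intro u hu v hv _
    exact ⟨X, hu, hv, Rooted.base X (hQ X hX hY)⟩
  | glue A B a b hA hB hAB hab hadj ihA ihB =>
    have haAB : a ∈ A ∩ B := by rw [hAB]; simp
    have hbAB : b ∈ A ∩ B := by rw [hAB]; simp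
    have hBA : B ∩ A = {a, b} := by rw [Set.inter_comm]; exact hAB
    have hadj' : ∀ x ∈ B \ A, ∀ y ∈ A \ B, ¬ H.Adj x y := fun x hx y hy h =>
      hadj y hy x hx h.symm
    have hYB : EdgeReal H D (B ∪ A) := by rw [Set.union_comm]; exact hY
    have rA := ihA (hY.left hD hAB hab hadj)
    have rB := ihB (hYB.left hD hBA hab hadj')
    have sAB := hY.sep hD hAB hab hadj
    have sBA := hYB.sep hD hBA hab hadj'
    have inter : ∀ z, z ∈ A → z ∈ B → z = a ∨ z = b := by
      intro z h1 h2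
      have : z ∈ ({a, b} : Set V) := by rw [← hAB]; exact ⟨h1, h2⟩
      exact this
    intro u hu v hv huv
    have hcase : (u ∈ A ∧ v ∈ A) ∨ (u ∈ B ∧ v ∈ B) := by
      rcases huv with rfl | huv
      · rcases hu with h | h
        · exact Or.inl ⟨h, h⟩
        · exact Or.inr ⟨h, h⟩
      · by_cases h1 : u ∈ A
        · by_cases h2 : v ∈ A
          · exact Or.inl ⟨h1, h2⟩
          · have hb2 : v ∈ B := hv.resolve_left h2
            by_cases h3 : u ∈ B
            · exact Or.inr ⟨h3, hb2⟩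
            · exact absurd huv (hadj u ⟨h1, h3⟩ v ⟨hb2, h2⟩)
        · have ha2 : u ∈ B := hu.resolve_left h1
          by_cases h2 : v ∈ B
          · exact Or.inr ⟨ha2, h2⟩
          · have hb1 : v ∈ A := hv.resolve_right h2
            exact absurd huv.symm (hadj v ⟨hb1, h2⟩ u ⟨ha2, h1⟩)
    rcases hcase with ⟨hu', hv'⟩ | ⟨hu', hv'⟩
    · obtain ⟨X, huX, hvX, hX⟩ := rA u hu' v hv' huv
      obtain ⟨X₂, haX, hbX, hX₂⟩ := rB a haAB.2 b hbAB.2 hab
      exact ⟨X, huX, hvX, hX.attach hD B X₂ a b hX₂ haAB.1 hbAB.1 hab haX hbX inter sAB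
        (fun x hx y hy hx' hy' => hadj x ⟨hx, hx'⟩ y ⟨hy, hy'⟩)⟩
    · obtain ⟨X, huX, hvX, hX⟩ := rB u hu' v hv' huv
      obtain ⟨X₂, haX, hbX, hX₂⟩ := rA a haAB.1 b hbAB.1 hab
      refine ⟨X, huX, hvX, ?_⟩
      rw [Set.union_comm]
      exact hX.attach hD A X₂ a b hX₂ haAB.2 hbAB.2 hab haX hbX (fun z h1 h2 => inter z h2 h1) sBA
        (fun x hx y hy hx' hy' => hadj' x ⟨hx, hx'⟩ y ⟨hy, hy'⟩)

end

end Vale.Agent.P235
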