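import Vale.Agent.Lib.P235.PW
import Vale.Agent.Lib.P235.Root

namespace Vale.Agent.P235

open SimpleGraph Finset

section
variable {V : Type} {D : V → V → ℝ}

/-- Functions that are Lipschitz along edges are Lipschitz along walks. -/
theorem lip_walk {G : SimpleGraph V} {ℓ : Sym2 V → ℝ} (f : V → ℝ)
    (hf : ∀ x y, G.Adj x y → f y - f x ≤ ℓ s(x, y)) {x y : V} (p : G.Walk x y) :
    f y - f x ≤ walkLen ℓ p := by
  induction p with
  | nil => simp [walkLen]
  | @cons u v w h p ih =>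
    have h1 := hf u v h
    have h2 : walkLen ℓ (Walk.cons h p) = ℓ s(u, v) + walkLen ℓ p := by simp [walkLen]
    rw [h2]; linarith

/-- Lengths given by a pseudometric. -/
def symD (hD : IsPM D) : Sym2 V → ℝ := Sym2.lift ⟨D, hD.symm⟩

theorem symD_nonneg (hD : IsPM D) (e : Sym2 V) : 0 ≤ symD hD e := by
  induction e with
  | _ x y => exact hD.nonneg x y

theorem symD_mk (hD : IsPM D) (x y : V) : symD hD s(x, y) = D x y := rfl

theorem le_pathDist {G : SimpleGraph V} {ℓ : Sym2 V → ℝ} (f : V → ℝ)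
    (hf : ∀ x y, G.Adj x y → f y - f x ≤ ℓ s(x, y)) {x y : V} (h : G.Reachable x y) :
    f y - f x ≤ pathDist G ℓ x y := by
  have : Nonempty (G.Walk x y) := h
  exact le_ciInf (fun p => lip_walk f hf p)

/-- Pieces of bounded pathwidth. -/
theorem LC_of_pathwidth [Fintype V] (hD : IsPM D) {H : SimpleGraph V} {X : Set V}
    (hX : EdgeReal H D X) {p : ℕ} (hp : PathwidthLE (H.induce X) p) :
    LC D X (2400 ^ (p + 1)) := by
  classical
  obtain ⟨m, B, _, hE, hI, hc⟩ := hp
  set H' := offGraph H Xᶜ with hH'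
  have adjH' : ∀ x y, H'.Adj x y ↔ H.Adj x y ∧ x ∈ X ∧ y ∈ X := by
    intro x y
    simp [hH', offGraph]
  set B' : Fin m → Finset V := fun i => (B i).map ⟨Subtype.val, Subtype.val_injective⟩ with hB'
  have memB' : ∀ i x, x ∈ B' i ↔ ∃ h : x ∈ X, (⟨x, h⟩ : X) ∈ B i := by
    intro i x
    simp only [hB', Finset.mem_map, Function.Embedding.coeFn_mk, Subtype.exists]
    constructor
    · rintro ⟨a, ha, hm, rfl⟩; exact ⟨ha, hm⟩
    · rintro ⟨ha, hm⟩; exact ⟨x, ha, hm, rfl⟩
  obtain ⟨M, ⟨ι, hι, w, f, hw, hw1, hf, _, hM⟩, hlow⟩ :=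
    pw_main (ℓ := symD hD) (symD_nonneg hD) (p + 1) H' B'
      (by
        intro x y hxy
        obtain ⟨h1, h2, h3⟩ := (adjH' x y).mp hxy
        obtain ⟨i, hi1, hi2⟩ := hE ⟨x, h2⟩ ⟨y, h3⟩ h1
        exact ⟨i, (memB' i x).mpr ⟨h2, hi1⟩, (memB' i y).mpr ⟨h3, hi2⟩⟩)
      (by
        intro x i j l hij hjl h1 h2
        obtain ⟨hx, g1⟩ := (memB' i x).mp h1
        obtain ⟨_, g2⟩ := (memB' l x).mp h2
        exact (memB' j x).mpr ⟨hx, hI ⟨x, hx⟩ i j l hij hjl g1 g2⟩)
      (by
        intro i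
        simp only [hB', Finset.card_map]
        exact hc i)
  have reach : ∀ x ∈ X, ∀ y ∈ X, H'.Reachable x y := by
    intro x hx y hy
    by_contra hcon
    have := hX (fun z => if H'.Reachable x z then 0 else D x y + 1) (by
      intro a ha b hb hab
      have hab' : H'.Adj a b := (adjH' a b).mpr ⟨hab, ha, hb⟩
      have : H'.Reachable x a ↔ H'.Reachable x b :=
        ⟨fun h => h.trans hab'.reachable, fun h => h.trans hab'.symm.reachable⟩
      beta_reduce
      by_cases h : H'.Reachable x a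
      · rw [if_pos h, if_pos (this.mp h), sub_zero]; exact hD.nonneg a b
      · rw [if_neg h, if_neg (fun h' => h (this.mpr h')), sub_self]; exact hD.nonneg a b) x hx y hy
    beta_reduce at this
    rw [if_neg hcon, if_pos (Reachable.refl x)] at this
    linarith
  refine ⟨ι, hι, w, f, hw, hw1, ?_, ?_⟩
  · intro i x hx y hy
    have one : ∀ x ∈ X, ∀ y ∈ X, f i y - f i x ≤ D x y := by
      apply hX
      intro a ha b hb hab
      have hab' : H'.Adj a b := (adjH' a b).mpr ⟨hab, ha, hb⟩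
      have h1 := hf i a b hab'.reachable
      have h2 := pathDist_adj (symD_nonneg hD) hab'
      rw [symD_mk] at h2
      have h3 := neg_abs_le (f i a - f i b)
      linarith
    rw [abs_sub_le_iff]
    exact ⟨by rw [hD.symm x y]; exact one y hy x hx, one x hx y hy⟩
  · intro x hx y hy
    have h1 := hlow x y (reach x hx y hy)
    rw [hM] at h1
    refine le_trans ?_ h1
    have := le_pathDist (G := H') (ℓ := symD hD) (fun z => D x z) (by
      intro a b _
      rw [symD_mk]
      have := hD.tri x a b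
      linarith) (reach x hx y hy)
    beta_reduce at this
    rw [hD.self] at this
    linarith

/-- Quotient form from the plain form, by localization. -/
theorem LCq_of_LC [Fintype V] (hD : IsPM D) {X : Set V} {κ : ℝ} (hκ : 1 ≤ κ) (h : LC D X κ)
    (u v : V) : LCq D X u v (300 * κ) := by
  obtain ⟨ι, hι, w, f, hw, hw1, hf, hfκ⟩ := h
  obtain ⟨M, ⟨ι', hι', w', g, hw', hw1', hg, hgZ, hM⟩, hlow⟩ :=
    localize (R := fun x y => x ∈ X ∧ y ∈ X) (D := D) (ρ := D) (lab := fun _ => ())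
      (r := fun x => min (D u x) (D v x)) (w := w) (fam := f) hκ hw hw1
      (fun x => le_min (hD.nonneg u x) (hD.nonneg v x))
      (fun x y _ => abs_min_sub_min_le (hD.abs_sub_le u x y) (hD.abs_sub_le v x y))
      (fun i x y h _ => hf i x h.1 y h.2)
      (fun x y h _ => hfκ x h.1 y h.2)
      (fun _ _ _ _ => le_rfl) (fun _ _ _ _ => Or.inl le_rfl) (fun _ _ _ h => absurd rfl h)
  have hu : u ∈ {x | min (D u x) (D v x) = 0} := by
    show min (D u u) (D v u) = 0
    rw [hD.self]; exact min_eq_left (hD.nonneg v u)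
  have hv : v ∈ {x | min (D u x) (D v x) = 0} := by
    show min (D u v) (D v v) = 0
    rw [hD.self]; exact min_eq_right (hD.nonneg u v)
  refine ⟨ι', hι', w', g, hw', hw1', fun i x hx y hy => hg i x y ⟨hx, hy⟩, ?_, ?_⟩
  · intro i
    rw [hgZ i u hu, hgZ i v hv]
  · intro x hx y hy
    rw [← hM]
    exact hlow x y ⟨hx, hy⟩

theorem LC.mono {X : Set V} {κ κ' : ℝ} (h : LC D X κ) (hκ : κ ≤ κ') : LC D X κ' := by
  obtain ⟨ι, hι, w, f, hw, hw1, hf, hfκ⟩ := h
  refine ⟨ι, hι, w, f, hw, hw1, hf, fun x hx y hy => (hfκ x hx y hy).trans ?_⟩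
  exact mul_le_mul_of_nonneg_right hκ
    (Finset.sum_nonneg (fun i _ => mul_nonneg (hw i) (abs_nonneg _)))

theorem isPiece_of_pathwidth [Fintype V] (hD : IsPM D) {H : SimpleGraph V} {X : Set V}
    (hX : EdgeReal H D X) {p : ℕ} (hp : PathwidthLE (H.induce X) p) :
    IsPiece D (300 * 2400 ^ (p + 1)) X := by
  have hκ : (1:ℝ) ≤ 2400 ^ (p + 1) := one_le_pow₀ (by norm_num)
  have h := LC_of_pathwidth hD hX hp
  exact ⟨h.mono (by linarith), fun u _ v _ => LCq_of_LC hD hκ h u v⟩

end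

end Vale.Agent.P235
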