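import Mathlib

namespace Vale.Agent.P235

open SimpleGraph MeasureTheory

/-- The length of a walk in `G` for the edge lengths `ℓ`. -/
noncomputable def walkLen {V : Type} {G : SimpleGraph V} (ℓ : Sym2 V → ℝ) {x y : V}
    (p : G.Walk x y) : ℝ :=
  (p.edges.map ℓ).sum

/-- The shortest-path distance in `G` for the edge lengths `ℓ`. -/
noncomputable def pathDist {V : Type} (G : SimpleGraph V) (ℓ : Sym2 V → ℝ) (x y : V) : ℝ :=
  ⨅ p : G.Walk x y, walkLen ℓ p

/-- The space `(X, d)` embeds into some `L₁(Ω, μ; ℝ)` with distortion at most `C`. -/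
def EmbedsL1 {X : Type} (d : X → X → ℝ) (C : ℝ) : Prop :=
  ∃ (Ω : Type) (_ : MeasurableSpace Ω) (μ : Measure Ω) (f : X → Lp ℝ 1 μ),
    ∀ x y, d x y ≤ ‖f x - f y‖ ∧ ‖f x - f y‖ ≤ C * d x y

/-- `c₁(G) ≤ C`: for all positive edge lengths the shortest-path metric of `G` embeds into `L₁`
with distortion at most `C`. -/
def C1LE {V : Type} (G : SimpleGraph V) (C : ℝ) : Prop :=
  ∀ ℓ : Sym2 V → ℝ, (∀ e ∈ G.edgeSet, 0 < ℓ e) → EmbedsL1 (pathDist G ℓ) C

/-- `G` has a path decomposition of width at most `p`. -/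
def PathwidthLE {V : Type} (G : SimpleGraph V) (p : ℕ) : Prop :=
  ∃ (m : ℕ) (B : Fin m → Finset V),
    (∀ x, ∃ i, x ∈ B i) ∧ (∀ x y, G.Adj x y → ∃ i, x ∈ B i ∧ y ∈ B i) ∧
    (∀ x, ∀ i j l, i ≤ j → j ≤ l → x ∈ B i → x ∈ B l → x ∈ B j) ∧
    ∀ i, (B i).card ≤ p + 1

/-- The subgraph of `H` induced on a vertex set is obtained from graphs of pathwidth at most `p` by
repeatedly gluing two graphs along a common vertex (`u = v`) or a common edge (`H.Adj u v`). -/
inductive EdgeGlued {V : Type} (H : SimpleGraph V) (p : ℕ) : Set V → Prop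
  | piece (X : Set V) (hX : PathwidthLE (H.induce X) p) : EdgeGlued H p X
  | glue (A B : Set V) (u v : V) (hA : EdgeGlued H p A) (hB : EdgeGlued H p B)
      (hAB : A ∩ B = {u, v}) (huv : u = v ∨ H.Adj u v)
      (hadj : ∀ a ∈ A \ B, ∀ b ∈ B \ A, ¬ H.Adj a b) : EdgeGlued H p (A ∪ B)

/-- `G` is a minor of `H`: there are pairwise disjoint connected branch sets in `H`, one for each
vertex of `G`, with an edge of `H` between the branch sets of any two adjacent vertices of `G`. -/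
def IsMinor {W V : Type} (G : SimpleGraph W) (H : SimpleGraph V) : Prop :=
  ∃ φ : W → Set V, (∀ w, (H.induce (φ w)).Connected) ∧
    (∀ w w', w ≠ w' → Disjoint (φ w) (φ w')) ∧
    ∀ w w', G.Adj w w' → ∃ x ∈ φ w, ∃ y ∈ φ w', H.Adj x y

end Vale.Agent.P235
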