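import Vale.Agent.Lib.P235.Main

namespace Vale.Agent.P235

open Finset

section
variable {V : Type*} [Fintype V] {D : V → V → ℝ}

/-- The main induction. -/
theorem Rooted.good {H : SimpleGraph V} (hD : IsPM D) {κ₀ κ K θ : ℝ} (hκ₀ : 1 ≤ κ₀)
    (hκ : κ = 8 * κ₀) (hθ : θ = 1 / (6 * κ)) (hK : 2 * κ ≤ K * θ) {Y X : Set V}
    (h : Rooted H D (IsPiece D κ₀) Y X) :
    ∀ FX : V → V → ℝ, IsCut FX → (∀ x ∈ X, ∀ y ∈ X, FX x y ≤ D x y) →
      (∀ x ∈ X, ∀ y ∈ X, D x y ≤ κ * FX x y) → ∃ F, Good D κ K Y X FX F := by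
  have hκ1 : 1 ≤ κ := by rw [hκ]; linarith
  have hκ0 : 0 < κ := by linarith
  have hθ0 : 0 < θ := by rw [hθ]; positivity
  have hθ1 : θ ≤ 1 := by
    rw [hθ, div_le_one (by positivity)]; linarith
  have hK0 : 0 ≤ K := by
    by_contra hneg
    push Not at hneg
    nlinarith
  have hK1 : κ ≤ 4 * K + κ := by linarith
  induction h with
  | base X hX =>
    intro FX cFX h1 h2
    refine ⟨FX, cFX, fun _ _ _ _ => rfl, h1, ?_, ?_⟩
    · intro x hx
      refine ⟨0, 1, x, hx, x, hx, le_refl _, zero_le_one, le_refl _, ?_, ?_, ?_⟩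
      · intro z _; ring
      · rw [hD.self, cFX.self]; simp
      · rw [hD.self, cFX.self]; simp
    · intro x hx y hy
      refine (h2 x hx y hy).trans ?_
      exact mul_le_mul_of_nonneg_right hK1 (cFX.nonneg x y)
  | step Y₁ Y₂ X X₂ a b h₁ h₂ haX hbX haX₂ hbX₂ hab hsep hadj ih₁ ih₂ =>
    intro FX cFX hFX1 hFX2
    have hX₂ : IsPiece D κ₀ X₂ := h₂.piece
    have hXY₁ : X ⊆ Y₁ := h₁.subset
    have hXY₂ : X₂ ⊆ Y₂ := h₂.subset
    -- the ratio at the gluing pair
    obtain ⟨t, ht0, ht1, htab⟩ : ∃ t : ℝ, 1 / κ ≤ t ∧ t ≤ 1 ∧ FX a b = t * D a b := by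
      by_cases hz : D a b = 0
      · refine ⟨1, ?_, le_refl _, ?_⟩
        · rw [div_le_one hκ0]; exact hκ1
        · have h1 := hFX1 a haX b hbX
          have h2 := cFX.nonneg a b
          rw [hz] at h1 ⊢
          linarith
      · have hpos : 0 < D a b := lt_of_le_of_ne (hD.nonneg a b) (Ne.symm hz)
        refine ⟨FX a b / D a b, ?_, ?_, ?_⟩
        · rw [div_le_div_iff₀ hκ0 hpos]
          have := hFX2 a haX b hbX
          linarith
        · rw [div_le_one hpos]; exact hFX1 a haX b hbX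
        · field_simp
    have htpos : 0 < t := lt_of_lt_of_le (by positivity) ht0
    -- the metric on the child root piece
    obtain ⟨G, cG, eG, bG, lG, pa, pb⟩ := piece_lemma hD haX₂ hbX₂ hκ₀ hX₂.1 (hX₂.2 a haX₂ b hbX₂)
      htpos ht1
    have hmint : 1 / κ ≤ min t (1 / (8 * κ₀)) := by
      refine le_min ht0 ?_
      rw [hκ]
    have lG' : ∀ x ∈ X₂, ∀ y ∈ X₂, D x y ≤ κ * G x y := by
      intro x hx y hy
      have h1 := lG x hx y hy
      have h2 : 1 / κ * D x y ≤ G x y :=
        (mul_le_mul_of_nonneg_right hmint (hD.nonneg x y)).trans h1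
      rw [div_mul_eq_mul_div, one_mul, div_le_iff₀ hκ0] at h2
      linarith
    have ht6 : θ ≤ t / 6 := by
      have : θ = (1 / κ) / 6 := by rw [hθ]; field_simp
      rw [this]
      exact div_le_div_of_nonneg_right ht0 (by norm_num)
    obtain ⟨F₁, cF₁, eF₁, bF₁, shF₁, lF₁⟩ := ih₁ FX cFX hFX1 hFX2
    obtain ⟨F₂, cF₂, eF₂, bF₂, shF₂, lF₂⟩ := ih₂ G cG bG lG'
    have hF12 : F₁ a b = F₂ a b := by
      rw [eF₁ a haX b hbX, eF₂ a haX₂ b hbX₂, htab, eG]
    obtain ⟨F, cF, eZ, eO, crossF⟩ := IsCut.glue cF₁ cF₂ Y₂ (hXY₂ haX₂) (hXY₂ hbX₂) hF12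
    have hout : ∀ x ∈ Y₁, (x ∉ Y₂ ∨ x = a ∨ x = b) := by
      intro x hx
      by_cases h : x ∈ Y₂
      · exact Or.inr (hab x hx h)
      · exact Or.inl h
    have e1 : ∀ x ∈ Y₁, ∀ y ∈ Y₁, F x y = F₁ x y := fun x hx y hy =>
      eO x y (hout x hx) (hout y hy)
    have e2 : ∀ x ∈ Y₂, ∀ y ∈ Y₂, F x y = F₂ x y := fun x hx y hy => eZ x y hx hy
    have haY₁ := hXY₁ haX
    have hbY₁ := hXY₁ hbX
    have haY₂ := hXY₂ haX₂
    have hbY₂ := hXY₂ hbX₂
    -- upward step for points of Y₂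
    have up : ∀ x ∈ Y₂, D x a ≤ K * F₂ x a ∧ D x b ≤ K * F₂ x b := by
      intro x hx
      obtain ⟨A, α, p, hp, q, hq, hA, hα0, hα1, hz, hdp, hdq⟩ := shF₂ x hx
      have hpY := hXY₂ hp
      have hqY := hXY₂ hq
      have key : ∀ u ∈ X₂, (∀ x ∈ X₂, ∀ y ∈ X₂,
          t / 6 * min (D u x) (D u y) ≤ (G u x + G u y - G x y) / 2) →
          D x u ≤ K * F₂ x u := by
        intro u hu hprod
        have hzu := hz u hu
        rw [hzu]
        have g1 := eF₂ u hu p hp
        have g2 := eF₂ u hu q hq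
        have g3 := eF₂ p hp q hq
        have s1 := cF₂.symm p u
        have s2 := cF₂.symm q u
        rw [s1, s2, g1, g2]
        rw [g3] at hdp hdq
        refine option_real (κ := κ) (θ := θ) (Dup := D u p) (Duq := D u q) (Fpq := G p q)
          (Dxp := D x p) (Dxq := D x q) hK hθ0 hθ1 hκ1 hK0 (hD.nonneg u p) (hD.nonneg u q)
          (bG u hu p hp) (bG u hu q hq) (lG' u hu p hp) (lG' u hu q hq) ?_ ?_ ?_ hdp hdq ?_ ?_
        · refine le_trans ?_ (hprod p hp q hq)
          exact mul_le_mul_of_nonneg_right ht6 (le_min (hD.nonneg u p) (hD.nonneg u q))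
        · have := cG.triangle u p q; linarith [cG.triangle u p q]
        · have h1 := cG.triangle u q p
          have h2 := cG.symm q p
          linarith
        · have h1 := hD.tri x p u
          have h2 := hD.symm p u
          linarith
        · have h1 := hD.tri x q u
          have h2 := hD.symm q u
          linarith
      exact ⟨key a haX₂ pa, key b hbX₂ pb⟩
    -- shadows of points of Y₂ in X
    have shadow2 : ∀ x ∈ Y₂, ∃ A α : ℝ, 0 ≤ A ∧ 0 ≤ α ∧ α ≤ 1 ∧
        (∀ z ∈ Y₁, F x z = A + α * F a z + (1 - α) * F b z) ∧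
        D x a ≤ K * (A + (1 - α) * F a b) ∧ D x b ≤ K * (A + α * F a b) := by
      intro x hx
      obtain ⟨A, α, hA, hα0, hα1, ha', hb', hz⟩ := crossF x hx
      obtain ⟨u1, u2⟩ := up x hx
      have hFab : F a b = F₂ a b := e2 a haY₂ b hbY₂
      refine ⟨A, α, hA, hα0, hα1, ?_, ?_, ?_⟩
      · intro z hz'
        rw [hz z (hout z hz'), e1 a haY₁ z hz', e1 b hbY₁ z hz']
      · rw [hFab, ← ha']; exact u1
      · rw [hFab, ← hb']; exact u2
    have hcross : ∀ x ∈ Y₂, ∀ y ∈ Y₁, D x y ≤ (4 * K + κ) * F x y := by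
      intro x hx y hy
      obtain ⟨A, α, hA, hα0, hα1, hz, hda, hdb⟩ := shadow2 x hx
      obtain ⟨B, β, p, hp, q, hq, hB, hβ0, hβ1, hz', hdp, hdq⟩ := shF₁ y hy
      have hpY := hXY₁ hp
      have hqY := hXY₁ hq
      have f1 : F₁ y a = B + β * F p a + (1 - β) * F q a := by
        rw [hz' a haX, e1 p hpY a haY₁, e1 q hqY a haY₁]
      have f2 : F₁ y b = B + β * F p b + (1 - β) * F q b := by
        rw [hz' b hbX, e1 p hpY b hbY₁, e1 q hqY b hbY₁]
      have f3 : F a y = B + β * F a p + (1 - β) * F a q := by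
        rw [cF.symm a y, e1 y hy a haY₁, f1, cF.symm p a, cF.symm q a]
      have f4 : F b y = B + β * F b p + (1 - β) * F b q := by
        rw [cF.symm b y, e1 y hy b hbY₁, f2, cF.symm p b, cF.symm q b]
      have hxy : F x y = A + B + (α * (β * F a p + (1 - β) * F a q) +
          (1 - α) * (β * F b p + (1 - β) * F b q)) := by
        rw [hz y hy, f3, f4]; ring
      rw [hxy]
      have hFpq : F₁ p q = F p q := (e1 p hpY q hqY).symm
      rw [hFpq] at hdp hdq
      have lX : ∀ s ∈ X, ∀ s' ∈ X, D s s' ≤ κ * F s s' := by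
        intro s hs s' hs'
        have := hFX2 s hs s' hs'
        rw [e1 s (hXY₁ hs) s' (hXY₁ hs'), eF₁ s hs s' hs']
        exact this
      refine cross_real (Dxa := D x a) (Dxb := D x b) (Dpy := D y p) (Dqy := D y q)
        (Dap := D a p) (Daq := D a q) (Dbp := D b p) (Dbq := D b q) (Fab := F a b) (Fpq := F p q)
        hκ0.le hK0 hA hB hα0 hα1 hβ0 hβ1
        (cF.nonneg _ _) (cF.nonneg _ _) (cF.nonneg _ _) (cF.nonneg _ _) ?_ ?_ ?_ ?_ hda hdb hdp hdq
        (lX a haX p hp) (lX a haX q hq) (lX b hbX p hp) (lX b hbX q hq) ?_ ?_ ?_ ?_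
      · have h1 := cF.triangle a p b
        have h2 := cF.symm p b
        linarith
      · have h1 := cF.triangle a q b
        have h2 := cF.symm q b
        linarith
      · have h1 := cF.triangle p a q
        have h2 := cF.symm p a
        linarith
      · have h1 := cF.triangle p b q
        have h2 := cF.symm p b
        linarith
      · have h1 := hD.tri x a y
        have h2 := hD.tri a p y
        have h3 := hD.symm p y
        linarith
      · have h1 := hD.tri x a y
        have h2 := hD.tri a q y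
        have h3 := hD.symm q y
        linarith
      · have h1 := hD.tri x b y
        have h2 := hD.tri b p y
        have h3 := hD.symm p y
        linarith
      · have h1 := hD.tri x b y
        have h2 := hD.tri b q y
        have h3 := hD.symm q y
        linarith
    refine ⟨F, cF, ?_, ?_, ?_, ?_⟩
    · intro x hx y hy
      rw [e1 x (hXY₁ hx) y (hXY₁ hy), eF₁ x hx y hy]
    · -- F ≤ D
      have hup : ∀ x ∈ Y₁, ∀ y ∈ Y₂, F x y ≤ D x y := by
        intro x hx y hy
        refine le_trans ?_ (hsep x hx y hy)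
        refine le_min ?_ ?_
        · have h1 := cF.triangle x a y
          have h2 : F x a ≤ D x a := by rw [e1 x hx a haY₁]; exact bF₁ x hx a haY₁
          have h3 : F a y ≤ D a y := by rw [e2 a haY₂ y hy]; exact bF₂ a haY₂ y hy
          linarith
        · have h1 := cF.triangle x b y
          have h2 : F x b ≤ D x b := by rw [e1 x hx b hbY₁]; exact bF₁ x hx b hbY₁
          have h3 : F b y ≤ D b y := by rw [e2 b hbY₂ y hy]; exact bF₂ b hbY₂ y hy
          linarith
      rintro x (hx | hx) y (hy | hy)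
      · rw [e1 x hx y hy]; exact bF₁ x hx y hy
      · exact hup x hx y hy
      · rw [cF.symm, hD.symm]; exact hup y hy x hx
      · rw [e2 x hx y hy]; exact bF₂ x hx y hy
    · -- shadows
      rintro x (hx | hx)
      · obtain ⟨A, α, p, hp, q, hq, hA, hα0, hα1, hz, hdp, hdq⟩ := shF₁ x hx
        have hpY := hXY₁ hp
        have hqY := hXY₁ hq
        refine ⟨A, α, p, hp, q, hq, hA, hα0, hα1, ?_, ?_, ?_⟩
        · intro z hz'
          have hzY := hXY₁ hz'
          rw [e1 x hx z hzY, e1 p hpY z hzY, e1 q hqY z hzY]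
          exact hz z hz'
        · rw [e1 p hpY q hqY]; exact hdp
        · rw [e1 p hpY q hqY]; exact hdq
      · obtain ⟨A, α, hA, hα0, hα1, hz, hda, hdb⟩ := shadow2 x hx
        exact ⟨A, α, a, haX, b, hbX, hA, hα0, hα1, fun z hz' => hz z (hXY₁ hz'), hda, hdb⟩
    · rintro x (hx | hx) y (hy | hy)
      · rw [e1 x hx y hy]; exact lF₁ x hx y hy
      · rw [cF.symm, hD.symm]; exact hcross y hy x hx
      · exact hcross x hx y hy
      · rw [e2 x hx y hy]; exact lF₂ x hx y hy

end

end Vale.Agent.P235
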