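import Vale.Agent.Lib.P235.Conn
import Vale.Agent.Lib.P235.Induct

namespace Vale.Agent.P235

open SimpleGraph Finset MeasureTheory

section
variable {V : Type}

theorem isPM_pathDist [Fintype V] {G : SimpleGraph V} (hG : G.Connected) {ℓ : Sym2 V → ℝ}
    (hℓ : ∀ e, 0 ≤ ℓ e) : IsPM (pathDist G ℓ) where
  nonneg := pathDist_nonneg hℓ
  self := pathDist_self hℓ
  symm := pathDist_symm hℓ
  tri x y z := pathDist_tri hℓ (hG.preconnected x y) (hG.preconnected y z)

theorem edgeReal_pathDist {G : SimpleGraph V} (hG : G.Connected) {ℓ : Sym2 V → ℝ}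
    (hℓ : ∀ e, 0 ≤ ℓ e) : EdgeReal G (pathDist G ℓ) Set.univ := by
  intro f hf x _ y _
  exact le_pathDist f (fun a b hab =>
    (hf a (Set.mem_univ a) b (Set.mem_univ b) hab).trans (pathDist_adj hℓ hab))
    (hG.preconnected x y)

theorem EdgeGlued.glued {H : SimpleGraph V} {p : ℕ} {Y : Set V} (h : EdgeGlued H p Y) :
    Glued H (fun X => PathwidthLE (H.induce X) p) Y := by
  induction h with
  | piece X hX => exact Glued.piece X hX
  | glue A B u v hA hB hAB huv hadj ihA ihB => exact Glued.glue A B u v ihA ihB hAB huv hadj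

/-- The cut metric for a connected edge-glued graph. -/
theorem cut_of_edgeGlued [Fintype V] {D : V → V → ℝ} (hD : IsPM D) {H : SimpleGraph V} {p : ℕ}
    (h : EdgeGlued H p Set.univ) (hE : EdgeReal H D Set.univ) (v₀ : V) {κ₀ κ K : ℝ}
    (hκ₀ : κ₀ = 300 * 2400 ^ (p + 1)) (hκ : κ = 8 * κ₀) (hK : K = 12 * κ ^ 2) :
    ∃ F, IsCut F ∧ (∀ x y, F x y ≤ D x y) ∧ ∀ x y, D x y ≤ (4 * K + κ) * F x y := by
  have hκ1 : (1:ℝ) ≤ κ₀ := by
    rw [hκ₀]
    have : (1:ℝ) ≤ 2400 ^ (p + 1) := one_le_pow₀ (by norm_num)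
    linarith
  obtain ⟨X, _, _, hX⟩ := h.glued.rooted hD (P := IsPiece D κ₀)
    (fun X hp hX => by rw [hκ₀]; exact isPiece_of_pathwidth hD hX hp) hE v₀ (Set.mem_univ _)
    v₀ (Set.mem_univ _) (Or.inl rfl)
  obtain ⟨ι, hι, w, f, hw, hw1, hf, hfκ⟩ := hX.piece.1
  have hκ0 : 0 < κ := by rw [hκ]; linarith
  obtain ⟨F, cF, _, bF, _, lF⟩ := hX.good hD hκ1 hκ (θ := 1 / (6 * κ)) rfl
    (K := K) (by
      rw [hK]
      have : 12 * κ ^ 2 * (1 / (6 * κ)) = 2 * κ := by field_simp; ring
      rw [this])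
    (fun x y => ∑ i, w i * |f i x - f i y|) (isCut_wsum w hw f)
    (by
      intro x hx y hy
      calc ∑ i, w i * |f i x - f i y| ≤ ∑ i, w i * D x y :=
            Finset.sum_le_sum (fun i _ => mul_le_mul_of_nonneg_left (hf i x hx y hy) (hw i))
        _ = D x y := by rw [← Finset.sum_mul, hw1, one_mul])
    (by
      intro x hx y hy
      refine (hfκ x hx y hy).trans ?_
      exact mul_le_mul_of_nonneg_right (by rw [hκ]; linarith)
        (Finset.sum_nonneg (fun i _ => mul_nonneg (hw i) (abs_nonneg _))))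
  exact ⟨F, cF, fun x y => bF x (Set.mem_univ x) y (Set.mem_univ y),
    fun x y => lF x (Set.mem_univ x) y (Set.mem_univ y)⟩

/-- A cut metric is an `L₁` metric. -/
theorem IsCut.embeds {F : V → V → ℝ} (hF : IsCut F) {W : Type} (g : W → V) {d : W → W → ℝ} {C : ℝ}
    (hC : 0 ≤ C) (h1 : ∀ x y, F (g x) (g y) ≤ d x y) (h2 : ∀ x y, d x y ≤ C * F (g x) (g y)) :
    EmbedsL1 d C := by
  obtain ⟨ι, hι, w, χ, hw, hχ, hFe⟩ := hF
  letI : MeasurableSpace ι := ⊤
  have hms : MeasurableSingletonClass ι := ⟨fun _ => trivial⟩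
  have hint : ∀ f : ι → ℝ, MemLp f 1 (Measure.count : Measure ι) := fun f =>
    memLp_one_iff_integrable.mpr Integrable.of_finite
  refine ⟨ι, ⊤, Measure.count, fun x => (hint (fun i => C * (w i * χ i (g x)))).toLp _, ?_⟩
  have key : ∀ x y, ‖(hint (fun i => C * (w i * χ i (g x)))).toLp _ -
      (hint (fun i => C * (w i * χ i (g y)))).toLp _‖ = C * F (g x) (g y) := by
    intro x y
    rw [← MemLp.toLp_sub, Lp.norm_toLp, eLpNorm_one_eq_lintegral_enorm]
    have e1 : ∫⁻ i, ‖((fun i => C * (w i * χ i (g x))) - fun i => C * (w i * χ i (g y))) i‖ₑ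
        ∂(Measure.count : Measure ι) =
        ∑ i, ENNReal.ofReal (C * (w i * |χ i (g x) - χ i (g y)|)) := by
      rw [lintegral_count, tsum_fintype]
      refine Finset.sum_congr rfl (fun i _ => ?_)
      rw [Real.enorm_eq_ofReal_abs]
      congr 1
      simp only [Pi.sub_apply]
      rw [← mul_sub, ← mul_sub, abs_mul, abs_mul, abs_of_nonneg hC, abs_of_nonneg (hw i)]
    rw [e1, ← ENNReal.ofReal_sum_of_nonneg
      (fun i _ => mul_nonneg hC (mul_nonneg (hw i) (abs_nonneg _))), ENNReal.toReal_ofReal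
      (Finset.sum_nonneg (fun i _ => mul_nonneg hC (mul_nonneg (hw i) (abs_nonneg _)))),
      ← Finset.mul_sum, hFe]
  intro x y
  rw [key]
  exact ⟨h2 x y, mul_le_mul_of_nonneg_left (h1 x y) hC⟩

end

section
variable {W V : Type} [Fintype W] [Fintype V] {G : SimpleGraph W} {H : SimpleGraph V}

/-- The auxiliary length function on the host graph. -/
noncomputable def hostLen (d : W → W → ℝ) (L : ℝ) : Option W → Option W → ℝ
  | some w, some w' => d w w'
  | _, _ => L

theorem hostLen_symm {d : W → W → ℝ} (hd : IsPM d) (L : ℝ) (a b : Option W) :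
    hostLen d L a b = hostLen d L b a := by
  cases a <;> cases b <;> simp [hostLen]
  exact hd.symm _ _

theorem host_metric {d : W → W → ℝ} (hd : IsPM d) (hdG : ∀ (D : W → W → ℝ), IsPM D →
      (∀ w w', G.Adj w w' → D w w' ≤ d w w') → ∀ w w', D w w' ≤ d w w')
    (hH : H.Connected) (hm : IsMinor G H) :
    ∃ (D : V → V → ℝ) (g : W → V), IsPM D ∧ EdgeReal H D Set.univ ∧
      ∀ w w', D (g w) (g w') = d w w' := by
  classical
  obtain ⟨φ, hφc, hφd, hφa⟩ := hm
  set L : ℝ := ∑ a, ∑ b, d a b with hL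
  have hdL : ∀ a b, d a b ≤ L := by
    intro a b
    have h1 : d a b ≤ ∑ b, d a b :=
      Finset.single_le_sum (f := fun b => d a b) (fun b _ => hd.nonneg a b) (Finset.mem_univ b)
    have h2 : ∑ b, d a b ≤ L :=
      Finset.single_le_sum (f := fun a => ∑ b, d a b)
        (fun a _ => Finset.sum_nonneg (fun b _ => hd.nonneg a b)) (Finset.mem_univ a)
    linarith
  have hL0 : 0 ≤ L := Finset.sum_nonneg (fun a _ => Finset.sum_nonneg (fun b _ => hd.nonneg a b))
  set β : V → Option W := fun x => if h : ∃ w, x ∈ φ w then some h.choose else none with hβ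
  have hβw : ∀ w, ∀ x ∈ φ w, β x = some w := by
    intro w x hx
    have h : ∃ w, x ∈ φ w := ⟨w, hx⟩
    have h2 := h.choose_spec
    simp only [hβ, dif_pos h]
    congr 1
    by_contra hne
    exact (Set.disjoint_left.mp (hφd _ _ hne) h2) hx
  set ℓ : Sym2 V → ℝ := Sym2.lift ⟨fun x y => hostLen d L (β x) (β y),
    fun x y => hostLen_symm hd L _ _⟩ with hℓ
  have hℓmk : ∀ x y, ℓ s(x, y) = hostLen d L (β x) (β y) := fun x y => rfl
  have hℓ0 : ∀ e, 0 ≤ ℓ e := by
    intro e
    induction e with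
    | _ x y =>
      rw [hℓmk]
      cases β x <;> cases β y <;> simp only [hostLen]
      · exact hL0
      · exact hL0
      · exact hL0
      · exact hd.nonneg _ _
  set D := pathDist H ℓ with hDdef
  have hD : IsPM D := isPM_pathDist hH hℓ0
  -- zero inside branch sets
  have hzero : ∀ w, ∀ x ∈ φ w, ∀ y ∈ φ w, D x y = 0 := by
    intro w x hx y hy
    have hr := (hφc w).preconnected ⟨x, hx⟩ ⟨y, hy⟩
    obtain ⟨p⟩ := hr
    have : ∀ (a b : φ w) (p : (H.induce (φ w)).Walk a b), D a b ≤ 0 := by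
      intro a b p
      induction p with
      | nil => rw [hD.self]
      | @cons a b c h p ih =>
        have h1 : D a b ≤ 0 := by
          have h2 : H.Adj a b := h
          have h3 := pathDist_adj hℓ0 h2
          rw [hℓmk, hβw w a a.2, hβw w b b.2] at h3
          simp only [hostLen, hd.self] at h3
          exact h3
        have := hD.tri a b c
        linarith
    exact le_antisymm (this ⟨x, hx⟩ ⟨y, hy⟩ p) (hD.nonneg x y)
  have hne : ∀ w, ∃ x, x ∈ φ w := by
    intro w
    obtain ⟨x⟩ := (hφc w).nonempty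
    exact ⟨x, x.2⟩
  choose g hg using hne
  refine ⟨D, g, hD, edgeReal_pathDist hH hℓ0, ?_⟩
  intro w w'
  apply le_antisymm
  · refine hdG (fun a b => D (g a) (g b)) ⟨fun _ _ => hD.nonneg _ _, fun _ => hD.self _,
      fun _ _ => hD.symm _ _, fun _ _ _ => hD.tri _ _ _⟩ ?_ w w'
    intro a b hab
    obtain ⟨x, hx, y, hy, hxy⟩ := hφa a b hab
    have h1 := pathDist_adj hℓ0 hxy
    rw [hℓmk, hβw a x hx, hβw b y hy] at h1
    simp only [hostLen] at h1
    have h2 := hzero a (g a) (hg a) x hx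
    have h3 := hzero b y hy (g b) (hg b)
    have h4 := hD.tri (g a) x (g b)
    have h5 := hD.tri x y (g b)
    show D (g a) (g b) ≤ d a b
    linarith
  · set F : V → ℝ := fun z => match β z with
      | some u => d w u
      | none => 0 with hF
    have hlip : ∀ x y, H.Adj x y → F y - F x ≤ ℓ s(x, y) := by
      intro x y _
      rw [hℓmk]
      simp only [hF]
      rcases β x with _ | a <;> rcases β y with _ | b <;> simp only [hostLen]
      · linarith
      · have := hdL w b; linarith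
      · have := hd.nonneg w a; linarith
      · have := hd.tri w a b; linarith
    have := le_pathDist F hlip (hH.preconnected (g w) (g w'))
    have e1 : F (g w') = d w w' := by simp only [hF, hβw w' _ (hg w')]
    have e2 : F (g w) = 0 := by simp only [hF, hβw w _ (hg w), hd.self]
    rw [e1, e2, sub_zero] at this
    exact this

/-- The constant. -/
noncomputable def cst (p : ℕ) : ℝ :=
  4 * (12 * (8 * (300 * 2400 ^ (p + 1))) ^ 2) + 8 * (300 * 2400 ^ (p + 1))

theorem main (p : ℕ) (hG : G.Connected) (hH : H.Connected) (h : EdgeGlued H p Set.univ)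
    (hm : IsMinor G H) : C1LE G (cst p) := by
  intro ℓ hℓ
  -- make the lengths nonnegative everywhere
  set ℓ' : Sym2 W → ℝ := fun e => max 0 (ℓ e) with hℓ'
  have hℓ0 : ∀ e, 0 ≤ ℓ' e := fun e => le_max_left _ _
  have hwl : ∀ (x y : W) (q : G.Walk x y), walkLen ℓ q = walkLen ℓ' q := by
    intro x y q
    unfold walkLen
    congr 1
    apply List.map_congr_left
    intro e he
    exact (max_eq_right (hℓ e (q.edges_subset_edgeSet he)).le).symm
  have hpd : pathDist G ℓ = pathDist G ℓ' := by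
    funext x y
    unfold pathDist
    congr 1
    funext q
    exact hwl x y q
  rw [hpd]
  have hd : IsPM (pathDist G ℓ') := isPM_pathDist hG hℓ0
  obtain ⟨D, g, hD, hE, hDg⟩ := host_metric (G := G) hd (by
    intro D' hD' hadj w w'
    have : Nonempty (G.Walk w w') := hG.preconnected w w'
    apply le_ciInf
    intro q
    induction q with
    | nil => rw [hD'.self]; exact walkLen_nonneg hℓ0 _
    | @cons a b c hab q ih =>
      have h1 := hadj a b hab
      have h2 := pathDist_adj hℓ0 hab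
      have h3 := hD'.tri a b c
      have h4 : walkLen ℓ' (Walk.cons hab q) = ℓ' s(a, b) + walkLen ℓ' q := by simp [walkLen]
      have h5 := ih ⟨q⟩
      linarith) hH hm
  obtain ⟨v₀⟩ := hH.nonempty
  obtain ⟨F, cF, F1, F2⟩ := cut_of_edgeGlued hD h hE v₀ rfl rfl rfl
  refine cF.embeds g (C := cst p) ?_ ?_ ?_
  · unfold cst; positivity
  · intro x y
    rw [← hDg]; exact F1 _ _
  · intro x y
    rw [← hDg]; exact F2 _ _

end

end Vale.Agent.P235
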