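import Vale.Agent.Lib.P235.L1Cone

namespace Vale.Agent.P235

open Finset

theorem abs01 {s t : ℝ} (hs : s = 0 ∨ s = 1) (ht : t = 0 ∨ t = 1) :
    |s - t| = s + t - 2 * s * t := by
  rcases hs with h | h <;> rcases ht with h' | h' <;> rw [h, h'] <;> norm_num

section
variable {V : Type*}

/-- Gluing two cut semimetrics along a pair `a, b`;  `Z` is the vertex set of the second part. -/
theorem IsCut.glue {F₁ F₂ : V → V → ℝ} (h₁ : IsCut F₁) (h₂ : IsCut F₂) (Z : Set V) {a b : V}
    (ha : a ∈ Z) (hb : b ∈ Z) (hab : F₁ a b = F₂ a b) :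
    ∃ F : V → V → ℝ, IsCut F ∧
      (∀ x y, x ∈ Z → y ∈ Z → F x y = F₂ x y) ∧
      (∀ x y, (x ∉ Z ∨ x = a ∨ x = b) → (y ∉ Z ∨ y = a ∨ y = b) → F x y = F₁ x y) ∧
      (∀ x ∈ Z, ∃ A α : ℝ, 0 ≤ A ∧ 0 ≤ α ∧ α ≤ 1 ∧
         F₂ x a = A + (1 - α) * F₂ a b ∧ F₂ x b = A + α * F₂ a b ∧
         ∀ z, (z ∉ Z ∨ z = a ∨ z = b) → F x z = A + α * F₁ a z + (1 - α) * F₁ b z) := by
  classical
  obtain ⟨ι, _, w, χ, hw, hχ, hχa, hF₁⟩ := h₁.normalize a
  obtain ⟨κ, _, w', χ', hw', hχ', hχa', hF₂⟩ := h₂.normalize a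
  set ℓ : ℝ := F₂ a b with hℓ
  set p : ι → ℝ := fun i => w i * χ i b with hp
  set q : ι → ℝ := fun i => w i * (1 - χ i b) with hq
  set p' : κ → ℝ := fun j => w' j * χ' j b with hp'
  set q' : κ → ℝ := fun j => w' j * (1 - χ' j b) with hq'
  have hχ01 : ∀ i x, 0 ≤ χ i x ∧ χ i x ≤ 1 := fun i x => by
    rcases hχ i x with h | h <;> rw [h] <;> norm_num
  have hχ01' : ∀ i x, 0 ≤ χ' i x ∧ χ' i x ≤ 1 := fun i x => by
    rcases hχ' i x with h | h <;> rw [h] <;> norm_num
  have hp0 : ∀ i, 0 ≤ p i := fun i => mul_nonneg (hw i) (hχ01 i b).1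
  have hq0 : ∀ i, 0 ≤ q i := fun i => mul_nonneg (hw i) (by linarith [(hχ01 i b).2])
  have hp0' : ∀ i, 0 ≤ p' i := fun i => mul_nonneg (hw' i) (hχ01' i b).1
  have hq0' : ∀ i, 0 ≤ q' i := fun i => mul_nonneg (hw' i) (by linarith [(hχ01' i b).2])
  have hsp : ∑ i, p i = ℓ := by
    rw [← hab, hF₁]
    refine Finset.sum_congr rfl (fun i _ => ?_)
    rw [hχa i, zero_sub, abs_neg, abs_of_nonneg (hχ01 i b).1]
  have hsp' : ∑ j, p' j = ℓ := by
    rw [hℓ, hF₂]
    refine Finset.sum_congr rfl (fun i _ => ?_)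
    rw [hχa' i, zero_sub, abs_neg, abs_of_nonneg (hχ01' i b).1]
  have hℓ0 : 0 ≤ ℓ := by rw [← hsp]; exact Finset.sum_nonneg (fun i _ => hp0 i)
  have hpℓ : ∀ i, p i * (ℓ / ℓ) = p i := by
    intro i
    by_cases h : ℓ = 0
    · have : p i = 0 := by
        have h' : ∑ i, p i = 0 := by rw [hsp, h]
        exact (Finset.sum_eq_zero_iff_of_nonneg (fun i _ => hp0 i)).mp h' i (Finset.mem_univ i)
      rw [this]; simp
    · rw [div_self h, mul_one]
  have hpℓ' : ∀ i, p' i * (ℓ / ℓ) = p' i := by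
    intro i
    by_cases h : ℓ = 0
    · have : p' i = 0 := by
        have h' : ∑ i, p' i = 0 := by rw [hsp', h]
        exact (Finset.sum_eq_zero_iff_of_nonneg (fun i _ => hp0' i)).mp h' i (Finset.mem_univ i)
      rw [this]; simp
    · rw [div_self h, mul_one]
  -- the three families
  set G : ι × κ → V → ℝ := fun ij x => if x ∈ Z then χ' ij.2 x else χ ij.1 x with hG
  set G₁ : ι → V → ℝ := fun i x => if x ∈ Z then 0 else χ i x with hG₁
  set G₂ : κ → V → ℝ := fun j x => if x ∈ Z then χ' j x else 0 with hG₂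
  have hG01 : ∀ ij x, G ij x = 0 ∨ G ij x = 1 := by
    intro ij x
    by_cases h : x ∈ Z
    · simp only [hG, h, if_true]; exact hχ' _ _
    · simp only [hG, h, if_false]; exact hχ _ _
  have hG₁01 : ∀ i x, G₁ i x = 0 ∨ G₁ i x = 1 := by
    intro ij x
    by_cases h : x ∈ Z
    · left; simp only [hG₁, h, if_true]
    · simp only [hG₁, h, if_false]; exact hχ _ _
  have hG₂01 : ∀ i x, G₂ i x = 0 ∨ G₂ i x = 1 := by
    intro ij x
    by_cases h : x ∈ Z
    · simp only [hG₂, h, if_true]; exact hχ' _ _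
    · left; simp only [hG₂, h, if_false]
  refine ⟨fun x y => (∑ ij : ι × κ, (p ij.1 * p' ij.2 / ℓ) * |G ij x - G ij y|) +
      (∑ i, q i * |G₁ i x - G₁ i y|) + (∑ j, q' j * |G₂ j x - G₂ j y|), ?_, ?_, ?_, ?_⟩
  · -- it is a cut semimetric
    refine ⟨(ι × κ) ⊕ (ι ⊕ κ), inferInstance,
      Sum.elim (fun ij => p ij.1 * p' ij.2 / ℓ) (Sum.elim q q'),
      Sum.elim G (Sum.elim G₁ G₂), ?_, ?_, ?_⟩
    · rintro (ij | i | j)
      · exact div_nonneg (mul_nonneg (hp0 _) (hp0' _)) hℓ0
      · exact hq0 i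
      · exact hq0' j
    · rintro (ij | i | j) x
      · exact hG01 ij x
      · exact hG₁01 i x
      · exact hG₂01 j x
    · intro x y
      simp [add_assoc]
  · -- on Z
    intro x y hx hy
    have e1 : ∑ ij : ι × κ, (p ij.1 * p' ij.2 / ℓ) * |G ij x - G ij y| =
        ∑ j, p' j * |χ' j x - χ' j y| := by
      rw [Fintype.sum_prod_type_right]
      refine Finset.sum_congr rfl (fun j _ => ?_)
      have : ∀ i, p (i, j).1 * p' (i, j).2 / ℓ * |G (i, j) x - G (i, j) y| =
          p i * (p' j / ℓ * |χ' j x - χ' j y|) := by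
        intro i
        simp only [hG, hx, hy, if_true]
        ring
      rw [Finset.sum_congr rfl (fun i _ => this i), ← Finset.sum_mul, hsp]
      have h2 := hpℓ' j
      calc ℓ * (p' j / ℓ * |χ' j x - χ' j y|) = (p' j * (ℓ / ℓ)) * |χ' j x - χ' j y| := by ring
        _ = _ := by rw [h2]
    have e2 : ∑ i, q i * |G₁ i x - G₁ i y| = 0 := by
      refine Finset.sum_eq_zero (fun i _ => ?_)
      simp [hG₁, hx, hy]
    have e3 : ∑ j, q' j * |G₂ j x - G₂ j y| = ∑ j, q' j * |χ' j x - χ' j y| := by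
      refine Finset.sum_congr rfl (fun j _ => ?_)
      simp [hG₂, hx, hy]
    show (∑ ij : ι × κ, (p ij.1 * p' ij.2 / ℓ) * |G ij x - G ij y|) +
      (∑ i, q i * |G₁ i x - G₁ i y|) + (∑ j, q' j * |G₂ j x - G₂ j y|) = F₂ x y
    rw [e1, e2, e3, hF₂, add_zero, ← Finset.sum_add_distrib]
    refine Finset.sum_congr rfl (fun j _ => ?_)
    simp only [hp', hq']
    ring
  · -- outside Z
    intro x y hx hy
    -- values of the families on outside points
    have key : ∀ x, (x ∉ Z ∨ x = a ∨ x = b) → ∀ i j, χ i b = 1 → χ' j b = 1 →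
        G (i, j) x = χ i x := by
      intro x hx i j hi hj
      rcases hx with h | h | h
      · simp [hG, h]
      · subst h; simp only [hG, ha, if_true]; rw [hχa, hχa']
      · subst h; simp only [hG, hb, if_true]; rw [hi, hj]
    have key1 : ∀ x, (x ∉ Z ∨ x = a ∨ x = b) → ∀ i, χ i b = 0 → G₁ i x = χ i x := by
      intro x hx i hi
      rcases hx with h | h | h
      · simp [hG₁, h]
      · subst h; simp only [hG₁, ha, if_true]; rw [hχa]
      · subst h; simp only [hG₁, hb, if_true]; rw [hi]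
    have key2 : ∀ x, (x ∉ Z ∨ x = a ∨ x = b) → ∀ j, χ' j b = 0 → G₂ j x = 0 := by
      intro x hx i hi
      rcases hx with h | h | h
      · simp [hG₂, h]
      · subst h; simp only [hG₂, ha, if_true]; rw [hχa']
      · subst h; simp only [hG₂, hb, if_true]; rw [hi]
    have e1 : ∑ ij : ι × κ, (p ij.1 * p' ij.2 / ℓ) * |G ij x - G ij y| =
        ∑ i, p i * |χ i x - χ i y| := by
      rw [Fintype.sum_prod_type]
      refine Finset.sum_congr rfl (fun i _ => ?_)
      have : ∀ j, p (i, j).1 * p' (i, j).2 / ℓ * |G (i, j) x - G (i, j) y| =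
          p' j * (p i / ℓ * |χ i x - χ i y|) := by
        intro j
        rcases hχ i b with hi | hi
        · simp [hp, hi]
        · rcases hχ' j b with hj | hj
          · simp [hp', hj]
          · rw [key x hx i j hi hj, key y hy i j hi hj]
            ring
      rw [Finset.sum_congr rfl (fun i _ => this i), ← Finset.sum_mul, hsp']
      have h2 := hpℓ i
      calc ℓ * (p i / ℓ * |χ i x - χ i y|) = (p i * (ℓ / ℓ)) * |χ i x - χ i y| := by ring
        _ = _ := by rw [h2]
    have e2 : ∑ i, q i * |G₁ i x - G₁ i y| = ∑ i, q i * |χ i x - χ i y| := by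
      refine Finset.sum_congr rfl (fun i _ => ?_)
      rcases hχ i b with hi | hi
      · rw [key1 x hx i hi, key1 y hy i hi]
      · simp [hq, hi]
    have e3 : ∑ j, q' j * |G₂ j x - G₂ j y| = 0 := by
      refine Finset.sum_eq_zero (fun j _ => ?_)
      rcases hχ' j b with hj | hj
      · rw [key2 x hx j hj, key2 y hy j hj]; simp
      · simp [hq', hj]
    show (∑ ij : ι × κ, (p ij.1 * p' ij.2 / ℓ) * |G ij x - G ij y|) +
      (∑ i, q i * |G₁ i x - G₁ i y|) + (∑ j, q' j * |G₂ j x - G₂ j y|) = F₁ x y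
    rw [e1, e2, e3, hF₁, add_zero, ← Finset.sum_add_distrib]
    refine Finset.sum_congr rfl (fun j _ => ?_)
    simp only [hp, hq]
    ring
  · -- cross terms
    intro x hx
    set βx : ℝ := ∑ j, p' j * χ' j x with hβx
    set Ax : ℝ := ∑ j, q' j * χ' j x with hAx
    have hβ0 : 0 ≤ βx := Finset.sum_nonneg (fun j _ => mul_nonneg (hp0' j) (hχ01' j x).1)
    have hβℓ : βx ≤ ℓ := by
      rw [← hsp']
      exact Finset.sum_le_sum (fun j _ => by
        have := (hχ01' j x).2
        have := hp0' j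
        nlinarith)
    have hA0 : 0 ≤ Ax := Finset.sum_nonneg (fun j _ => mul_nonneg (hq0' j) (hχ01' j x).1)
    have hβdiv : βx / ℓ * ℓ = βx := by
      by_cases h : ℓ = 0
      · have : βx = 0 := le_antisymm (by rw [← h]; exact hβℓ) hβ0
        rw [this]; simp
      · field_simp
    have hdiv0 : 0 ≤ βx / ℓ := div_nonneg hβ0 hℓ0
    have hdiv1 : βx / ℓ ≤ 1 := div_le_one_of_le₀ hβℓ hℓ0
    have e2a : F₂ x a = Ax + βx := by
      rw [hF₂, hAx, hβx, ← Finset.sum_add_distrib]
      refine Finset.sum_congr rfl (fun j _ => ?_)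
      rw [hχa', sub_zero, abs_of_nonneg (hχ01' j x).1]
      simp only [hp', hq']
      ring
    have e2b : F₂ x b = Ax + (ℓ - βx) := by
      rw [hF₂, hAx, hβx, ← hsp', ← Finset.sum_sub_distrib, ← Finset.sum_add_distrib]
      refine Finset.sum_congr rfl (fun j _ => ?_)
      rw [abs01 (hχ' j x) (hχ' j b)]
      simp only [hp', hq']
      ring
    refine ⟨Ax, 1 - βx / ℓ, hA0, by linarith, by linarith, ?_, ?_, ?_⟩
    · have : (1 - (1 - βx / ℓ)) * ℓ = βx := by
        have : (1 - (1 - βx / ℓ)) * ℓ = βx / ℓ * ℓ := by ring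
        rw [this, hβdiv]
      rw [e2a, this]
    · have : (1 - βx / ℓ) * ℓ = ℓ - βx := by
        have : (1 - βx / ℓ) * ℓ = ℓ - βx / ℓ * ℓ := by ring
        rw [this, hβdiv]
      rw [e2b, this]
    · intro z hz
      -- the values on z
      have key : ∀ i j, χ i b = 1 → χ' j b = 1 → G (i, j) z = χ i z := by
        intro i j hi hj
        rcases hz with h | h | h
        · simp [hG, h]
        · subst h; simp only [hG, ha, if_true]; rw [hχa, hχa']
        · subst h; simp only [hG, hb, if_true]; rw [hi, hj]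
      have key1 : ∀ i, χ i b = 0 → G₁ i z = χ i z := by
        intro i hi
        rcases hz with h | h | h
        · simp [hG₁, h]
        · subst h; simp only [hG₁, ha, if_true]; rw [hχa]
        · subst h; simp only [hG₁, hb, if_true]; rw [hi]
      have key2 : ∀ j, χ' j b = 0 → G₂ j z = 0 := by
        intro i hi
        rcases hz with h | h | h
        · simp [hG₂, h]
        · subst h; simp only [hG₂, ha, if_true]; rw [hχa']
        · subst h; simp only [hG₂, hb, if_true]; rw [hi]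
      set βz : ℝ := ∑ i, p i * χ i z with hβz
      set Az : ℝ := ∑ i, q i * χ i z with hAz
      have f1a : F₁ a z = Az + βz := by
        rw [hF₁, hAz, hβz, ← Finset.sum_add_distrib]
        refine Finset.sum_congr rfl (fun j _ => ?_)
        rw [hχa, zero_sub, abs_neg, abs_of_nonneg (hχ01 j z).1]
        simp only [hp, hq]
        ring
      have f1b : F₁ b z = Az + (ℓ - βz) := by
        rw [hF₁, hAz, hβz, ← hsp, ← Finset.sum_sub_distrib, ← Finset.sum_add_distrib]
        refine Finset.sum_congr rfl (fun j _ => ?_)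
        rw [abs01 (hχ j b) (hχ j z)]
        simp only [hp, hq]
        ring
      have g1 : ∑ ij : ι × κ, (p ij.1 * p' ij.2 / ℓ) * |G ij x - G ij z| =
          βx * (ℓ / ℓ) + βz * (ℓ / ℓ) - 2 * βx * βz / ℓ := by
        have t1 : ∀ ij : ι × κ, (p ij.1 * p' ij.2 / ℓ) * |G ij x - G ij z| =
            (p ij.1) * (p' ij.2 * χ' ij.2 x) * (1 / ℓ) + (p ij.1 * χ ij.1 z) * (p' ij.2) * (1 / ℓ)
             - (p ij.1 * χ ij.1 z) * (p' ij.2 * χ' ij.2 x) * (2 / ℓ) := by
          rintro ⟨i, j⟩
          rcases hχ i b with hi | hi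
          · simp [hp, hi]
          · rcases hχ' j b with hj | hj
            · simp [hp', hj]
            · rw [key i j hi hj]
              have : G (i, j) x = χ' j x := by simp [hG, hx]
              rw [this, abs01 (hχ' j x) (hχ i z)]
              simp only
              ring
        rw [Finset.sum_congr rfl (fun ij _ => t1 ij), Finset.sum_sub_distrib,
          Finset.sum_add_distrib, ← Finset.sum_mul, ← Finset.sum_mul, ← Finset.sum_mul]
        have u1 : ∑ ij : ι × κ, p ij.1 * (p' ij.2 * χ' ij.2 x) = ℓ * βx := by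
          rw [Fintype.sum_prod_type, ← hsp, hβx, Finset.sum_mul_sum]
        have u2 : ∑ ij : ι × κ, (p ij.1 * χ ij.1 z) * (p' ij.2) = βz * ℓ := by
          rw [Fintype.sum_prod_type, ← hsp', hβz, Finset.sum_mul_sum]
        have u3 : ∑ ij : ι × κ, (p ij.1 * χ ij.1 z) * (p' ij.2 * χ' ij.2 x) = βz * βx := by
          rw [Fintype.sum_prod_type, hβx, hβz, Finset.sum_mul_sum]
        rw [u1, u2, u3]
        ring
      have g2 : ∑ i, q i * |G₁ i x - G₁ i z| = Az := by
        rw [hAz]
        refine Finset.sum_congr rfl (fun i _ => ?_)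
        rcases hχ i b with hi | hi
        · rw [key1 i hi]
          have : G₁ i x = 0 := by simp [hG₁, hx]
          rw [this, zero_sub, abs_neg, abs_of_nonneg (hχ01 i z).1]
        · simp [hq, hi]
      have g3 : ∑ j, q' j * |G₂ j x - G₂ j z| = Ax := by
        rw [hAx]
        refine Finset.sum_congr rfl (fun j _ => ?_)
        rcases hχ' j b with hj | hj
        · rw [key2 j hj]
          have : G₂ j x = χ' j x := by simp [hG₂, hx]
          rw [this, sub_zero, abs_of_nonneg (hχ01' j x).1]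
        · simp [hq', hj]
      have hz0 : 0 ≤ βz := Finset.sum_nonneg (fun j _ => mul_nonneg (hp0 j) (hχ01 j z).1)
      have hzℓ : βz ≤ ℓ := by
        rw [← hsp]
        exact Finset.sum_le_sum (fun j _ => by
          have := (hχ01 j z).2
          have := hp0 j
          nlinarith)
      show (∑ ij : ι × κ, (p ij.1 * p' ij.2 / ℓ) * |G ij x - G ij z|) +
        (∑ i, q i * |G₁ i x - G₁ i z|) + (∑ j, q' j * |G₂ j x - G₂ j z|) = _
      rw [g1, g2, g3, f1a, f1b]
      by_cases h : ℓ = 0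
      · have h1 : βx = 0 := le_antisymm (by rw [← h]; exact hβℓ) hβ0
        have h2 : βz = 0 := le_antisymm (by rw [← h]; exact hzℓ) hz0
        rw [h1, h2, h]; simp; ring
      · field_simp
        ring

end

end Vale.Agent.P235
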