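import Mathlib

namespace Vale.Agent.P235

open Finset

section Cone
variable {V : Type*}

/-- `F` is a nonnegative combination of finitely many cut semimetrics. -/
def IsCut (F : V → V → ℝ) : Prop :=
  ∃ (ι : Type) (_ : Fintype ι) (w : ι → ℝ) (χ : ι → V → ℝ),
    (∀ i, 0 ≤ w i) ∧ (∀ i x, χ i x = 0 ∨ χ i x = 1) ∧
    ∀ x y, F x y = ∑ i, w i * |χ i x - χ i y|

theorem IsCut.zero : IsCut (fun _ _ : V => (0 : ℝ)) :=
  ⟨Empty, inferInstance, fun _ => 0, fun i _ => i.elim, by simp, by simp, by simp⟩

theorem IsCut.add {F G : V → V → ℝ} (hF : IsCut F) (hG : IsCut G) :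
    IsCut (fun x y => F x y + G x y) := by
  obtain ⟨ι, _, w, χ, hw, hχ, hF⟩ := hF
  obtain ⟨κ, _, w', χ', hw', hχ', hG⟩ := hG
  refine ⟨ι ⊕ κ, inferInstance, Sum.elim w w', Sum.elim χ χ', ?_, ?_, ?_⟩
  · rintro (i | i)
    · exact hw i
    · exact hw' i
  · rintro (i | i) x
    · exact hχ i x
    · exact hχ' i x
  · intro x y
    simp [hF, hG]

theorem IsCut.smul {F : V → V → ℝ} (hF : IsCut F) {c : ℝ} (hc : 0 ≤ c) :
    IsCut (fun x y => c * F x y) := by
  obtain ⟨ι, _, w, χ, hw, hχ, hF⟩ := hF
  refine ⟨ι, inferInstance, fun i => c * w i, χ, fun i => mul_nonneg hc (hw i), hχ, ?_⟩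
  intro x y
  simp [hF, Finset.mul_sum, mul_assoc]

theorem IsCut.congr {F G : V → V → ℝ} (hF : IsCut F) (h : ∀ x y, G x y = F x y) : IsCut G := by
  have : G = F := by funext x y; exact h x y
  rw [this]; exact hF

theorem IsCut.sum {κ : Type*} (s : Finset κ) (c : κ → ℝ) (F : κ → V → V → ℝ)
    (hc : ∀ i ∈ s, 0 ≤ c i) (hF : ∀ i ∈ s, IsCut (F i)) :
    IsCut (fun x y => ∑ i ∈ s, c i * F i x y) := by
  classical
  induction s using Finset.induction_on with
  | empty => simpa using IsCut.zero
  | insert a s ha ih =>
    have h1 := (hF a (Finset.mem_insert_self a s)).smul (hc a (Finset.mem_insert_self a s))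
    have h2 := ih (fun i hi => hc i (Finset.mem_insert_of_mem hi))
      (fun i hi => hF i (Finset.mem_insert_of_mem hi))
    refine (h1.add h2).congr ?_
    intro x y
    rw [Finset.sum_insert ha]

theorem IsCut.nonneg {F : V → V → ℝ} (hF : IsCut F) (x y : V) : 0 ≤ F x y := by
  obtain ⟨ι, _, w, χ, hw, hχ, hF⟩ := hF
  rw [hF]
  exact Finset.sum_nonneg (fun i _ => mul_nonneg (hw i) (abs_nonneg _))

theorem IsCut.symm {F : V → V → ℝ} (hF : IsCut F) (x y : V) : F x y = F y x := by
  obtain ⟨ι, _, w, χ, hw, hχ, hF⟩ := hF
  rw [hF, hF]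
  exact Finset.sum_congr rfl (fun i _ => by rw [abs_sub_comm])

theorem IsCut.self {F : V → V → ℝ} (hF : IsCut F) (x : V) : F x x = 0 := by
  obtain ⟨ι, _, w, χ, hw, hχ, hF⟩ := hF
  rw [hF]
  simp

theorem IsCut.triangle {F : V → V → ℝ} (hF : IsCut F) (x y z : V) :
    F x z ≤ F x y + F y z := by
  obtain ⟨ι, _, w, χ, hw, hχ, hF⟩ := hF
  rw [hF, hF, hF, ← Finset.sum_add_distrib]
  refine Finset.sum_le_sum (fun i _ => ?_)
  rw [← mul_add]
  exact mul_le_mul_of_nonneg_left (abs_sub_le _ _ _) (hw i)

/-- The cuts may be chosen to avoid a given base point. -/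
theorem IsCut.normalize {F : V → V → ℝ} (hF : IsCut F) (a : V) :
    ∃ (ι : Type) (_ : Fintype ι) (w : ι → ℝ) (χ : ι → V → ℝ),
    (∀ i, 0 ≤ w i) ∧ (∀ i x, χ i x = 0 ∨ χ i x = 1) ∧ (∀ i, χ i a = 0) ∧
    ∀ x y, F x y = ∑ i, w i * |χ i x - χ i y| := by
  obtain ⟨ι, _, w, χ, hw, hχ, hF⟩ := hF
  refine ⟨ι, inferInstance, w, fun i x => |χ i x - χ i a|, hw, ?_, ?_, ?_⟩
  · intro i x
    rcases hχ i x with h | h <;> rcases hχ i a with h' | h' <;> simp [h, h']
  · intro i; simp
  · intro x y
    rw [hF]
    refine Finset.sum_congr rfl (fun i _ => ?_)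
    rcases hχ i x with h | h <;> rcases hχ i a with h' | h' <;>
      rcases hχ i y with h'' | h'' <;> simp [h, h', h'']

end Cone

section Line
variable {V : Type*}

theorem isCut_indicator (χ : V → ℝ) (hχ : ∀ x, χ x = 0 ∨ χ x = 1) :
    IsCut (fun x y => |χ x - χ y|) :=
  ⟨Unit, inferInstance, fun _ => 1, fun _ => χ, by simp, fun _ => hχ, by simp⟩

/-- Line semimetrics are in the cut cone. -/
theorem isCut_abs_sub [Fintype V] (f : V → ℝ) : IsCut (fun x y => |f x - f y|) := by
  classical
  -- induction on the number of values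
  suffices h : ∀ n : ℕ, ∀ f : V → ℝ, (Finset.univ.image f).card ≤ n →
      IsCut (fun x y => |f x - f y|) from h _ f le_rfl
  intro n
  induction n with
  | zero =>
    intro f hf
    have he : (Finset.univ.image f) = ∅ := Finset.card_eq_zero.mp (Nat.le_zero.mp hf)
    have hV : IsEmpty V := by
      constructor
      intro v
      have : f v ∈ (Finset.univ.image f) := Finset.mem_image_of_mem f (Finset.mem_univ v)
      rw [he] at this
      simp at this
    exact IsCut.zero.congr (fun x _ => (hV.false x).elim)
  | succ n ih =>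
    intro f hf
    by_cases hne : (Finset.univ.image f).Nonempty
    · set M := (Finset.univ.image f).max' hne with hM
      set T := (Finset.univ.image f).erase M with hT
      have hMmem : M ∈ Finset.univ.image f := Finset.max'_mem _ _
      by_cases hTne : T.Nonempty
      · set m := T.max' hTne with hm
        have hmT : m ∈ T := Finset.max'_mem _ _
        have hmM : m < M := by
          have h1 : m ∈ Finset.univ.image f := Finset.mem_of_mem_erase hmT
          have h2 : m ≠ M := Finset.ne_of_mem_erase hmT
          exact lt_of_le_of_ne (Finset.le_max' _ _ h1) h2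
        have hcase : ∀ x, f x = M ∨ f x ≤ m := by
          intro x
          by_cases h : f x = M
          · exact Or.inl h
          · right
            apply Finset.le_max'
            exact Finset.mem_erase.mpr ⟨h, Finset.mem_image_of_mem f (Finset.mem_univ x)⟩
        -- the lower function
        have hcard : (Finset.univ.image (fun x => min (f x) m)).card ≤ n := by
          have hsub : (Finset.univ.image (fun x => min (f x) m)) ⊆ T := by
            intro t ht
            obtain ⟨x, _, rfl⟩ := Finset.mem_image.mp ht
            rcases hcase x with h | h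
            · have : min (f x) m = m := by rw [h]; exact min_eq_right hmM.le
              show min (f x) m ∈ T
              rw [this]; exact hmT
            · have : min (f x) m = f x := min_eq_left h
              show min (f x) m ∈ T
              rw [this]
              refine Finset.mem_erase.mpr ⟨?_, Finset.mem_image_of_mem f (Finset.mem_univ x)⟩
              exact (lt_of_le_of_lt h hmM).ne
          refine (Finset.card_le_card hsub).trans ?_
          rw [hT, Finset.card_erase_of_mem hMmem]
          omega
        have h1 := ih (fun x => min (f x) m) hcard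
        have h2 : IsCut (fun x y : V => (M - m) * |(if f x = M then (1:ℝ) else 0) -
            (if f y = M then (1:ℝ) else 0)|) := by
          refine IsCut.smul (isCut_indicator (fun x => if f x = M then (1:ℝ) else 0) ?_)
            (by linarith)
          intro x
          by_cases h : f x = M <;> simp [h]
        refine (h1.add h2).congr ?_
        intro x y
        rcases hcase x with hx | hx <;> rcases hcase y with hy | hy
        · simp [hx, hy]
        · have hy' : f y ≠ M := (lt_of_le_of_lt hy hmM).ne
          have e1 : min M m = m := min_eq_right hmM.le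
          have e2 : min (f y) m = f y := min_eq_left hy
          simp only [hx, e1, e2, hy', if_true, if_false, sub_zero, abs_one, mul_one]
          rw [abs_of_nonneg (by linarith), abs_of_nonneg (by linarith)]
          ring
        · have hx' : f x ≠ M := (lt_of_le_of_lt hx hmM).ne
          have e1 : min M m = m := min_eq_right hmM.le
          have e2 : min (f x) m = f x := min_eq_left hx
          simp only [hy, e1, e2, hx', if_true, if_false, zero_sub, abs_neg, abs_one, mul_one]
          rw [abs_of_nonpos (by linarith), abs_of_nonpos (by linarith)]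
          ring
        · have hx' : f x ≠ M := (lt_of_le_of_lt hx hmM).ne
          have hy' : f y ≠ M := (lt_of_le_of_lt hy hmM).ne
          simp [hx', hy', min_eq_left hx, min_eq_left hy]
      · -- constant function
        have hconst : ∀ x, f x = M := by
          intro x
          by_contra h
          exact hTne ⟨f x, Finset.mem_erase.mpr ⟨h, Finset.mem_image_of_mem f (Finset.mem_univ x)⟩⟩
        refine IsCut.zero.congr (fun x y => ?_)
        simp [hconst]
    · have hV : IsEmpty V := by
        constructor
        intro v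
        exact hne ⟨f v, Finset.mem_image_of_mem f (Finset.mem_univ v)⟩
      exact IsCut.zero.congr (fun x _ => (hV.false x).elim)

/-- The sup of two line semimetrics is in the cut cone. -/
theorem isCut_max [Fintype V] (h f : V → ℝ) : IsCut (fun x y => max |h x - h y| |f x - f y|) := by
  have h1 := (isCut_abs_sub (fun x => h x + f x)).smul (c := 1/2) (by norm_num)
  have h2 := (isCut_abs_sub (fun x => h x - f x)).smul (c := 1/2) (by norm_num)
  refine (h1.add h2).congr ?_
  intro x y
  have e1 : h x + f x - (h y + f y) = (h x - h y) + (f x - f y) := by ring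
  have e2 : h x - f x - (h y - f y) = (h x - h y) - (f x - f y) := by ring
  simp only [e1, e2]
  generalize h x - h y = s
  generalize f x - f y = t
  rcases abs_cases s with ⟨hs, hs'⟩ | ⟨hs, hs'⟩ <;> rcases abs_cases t with ⟨ht, ht'⟩ | ⟨ht, ht'⟩ <;>
    rcases abs_cases (s+t) with ⟨hst, hst'⟩ | ⟨hst, hst'⟩ <;>
    rcases abs_cases (s-t) with ⟨hd, hd'⟩ | ⟨hd, hd'⟩ <;>
    rcases max_cases |s| |t| with ⟨hm, hm'⟩ | ⟨hm, hm'⟩ <;> linarith

end Line

end Vale.Agent.P235
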