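import Vale.Agent.Lib.P235.Root

namespace Vale.Agent.P235

open Finset

section
variable {V : Type}

/-- `M` is an average of `|f x - f y|` over functions `f` that are `1`-Lipschitz on the pairs
related by `R` and vanish on `Z`. -/
def RF (R : V → V → Prop) (D : V → V → ℝ) (Z : Set V) (M : V → V → ℝ) : Prop :=
  ∃ (ι : Type) (_ : Fintype ι) (w : ι → ℝ) (f : ι → V → ℝ),
    (∀ i, 0 ≤ w i) ∧ (∑ i, w i = 1) ∧ (∀ i x y, R x y → |f i x - f i y| ≤ D x y) ∧
    (∀ i, ∀ x ∈ Z, f i x = 0) ∧ ∀ x y, M x y = ∑ i, w i * |f i x - f i y|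

theorem RF.single {R : V → V → Prop} {D : V → V → ℝ} {Z : Set V} (f : V → ℝ)
    (h : ∀ x y, R x y → |f x - f y| ≤ D x y) (hZ : ∀ x ∈ Z, f x = 0) :
    RF R D Z (fun x y => |f x - f y|) :=
  ⟨Unit, inferInstance, fun _ => 1, fun _ => f, by simp, by simp, fun _ => h, fun _ => hZ, by simp⟩

theorem RF.convex {R : V → V → Prop} {D : V → V → ℝ} {Z : Set V} {κ : Type} [Fintype κ]
    (c : κ → ℝ) (hc : ∀ k, 0 ≤ c k) (hc1 : ∑ k, c k = 1) (M : κ → V → V → ℝ)
    (hM : ∀ k, RF R D Z (M k)) : RF R D Z (fun x y => ∑ k, c k * M k x y) := by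
  classical
  choose ι hι w f hw hw1 hf hZ hM using hM
  refine ⟨Σ k, ι k, inferInstance, fun p => c p.1 * w p.1 p.2, fun p => f p.1 p.2, ?_, ?_, ?_, ?_, ?_⟩
  · rintro ⟨k, i⟩; exact mul_nonneg (hc k) (hw k i)
  · rw [Fintype.sum_sigma]
    simp only [← Finset.mul_sum, hw1, mul_one]
    exact hc1
  · rintro ⟨k, i⟩ x y hxy; exact hf k i x y hxy
  · rintro ⟨k, i⟩ x hx; exact hZ k i x hx
  · intro x y
    rw [Fintype.sum_sigma]
    refine Finset.sum_congr rfl (fun k _ => ?_)
    rw [hM, Finset.mul_sum]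
    refine Finset.sum_congr rfl (fun i _ => ?_)
    ring

theorem sign_pair (s s' : Bool) (a b : ℝ) :
    |(if s then (1:ℝ) else -1) * a - (if s' then (1:ℝ) else -1) * b| +
    |(if !s then (1:ℝ) else -1) * a - (if s' then (1:ℝ) else -1) * b| = |a - b| + |a + b| := by
  have e1 : |-a - b| = |a + b| := by
    rw [← abs_neg, neg_sub, sub_neg_eq_add, add_comm]
  have e2 : |a - -b| = |a + b| := by rw [sub_neg_eq_add]
  have e3 : |-a - -b| = |a - b| := by
    rw [← abs_neg, neg_sub, sub_neg_eq_add, neg_add_eq_sub]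
  cases s <;> cases s' <;> simp only [Bool.not_true, Bool.not_false, if_true, if_false,
    Bool.false_eq_true, one_mul, neg_one_mul, e1, e2, e3] <;> ring

theorem sum_signs [Fintype V] [DecidableEq V] {p q : V} (hpq : p ≠ q) (a b : ℝ) :
    ∑ σ : V → Bool, |(if σ p then (1:ℝ) else -1) * a - (if σ q then (1:ℝ) else -1) * b| =
      (Fintype.card (V → Bool) : ℝ) * ((|a - b| + |a + b|) / 2) := by
  set g : (V → Bool) → ℝ := fun σ =>
    |(if σ p then (1:ℝ) else -1) * a - (if σ q then (1:ℝ) else -1) * b| with hg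
  have hinv : Function.Involutive (fun σ : V → Bool => Function.update σ p (!σ p)) := by
    intro σ
    funext x
    by_cases h : x = p
    · subst h; simp
    · simp [Function.update_of_ne h]
  have h1 : ∑ σ, g σ = ∑ σ, g (Function.update σ p (!σ p)) :=
    (Equiv.sum_comp (hinv.toPerm) g).symm
  have h2 : ∀ σ, g σ + g (Function.update σ p (!σ p)) = |a - b| + |a + b| := by
    intro σ
    have hq : Function.update σ p (!σ p) q = σ q := Function.update_of_ne (Ne.symm hpq) _ _
    simp only [hg, Function.update_self, hq]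
    exact sign_pair (σ p) (σ q) a b
  have h3 : ∑ σ, g σ + ∑ σ, g σ = ∑ σ : V → Bool, (|a - b| + |a + b|) := by
    conv_lhs => rw [h1]
    rw [← h1]
    conv_lhs => enter [2]; rw [h1]
    rw [← Finset.sum_add_distrib]
    exact Finset.sum_congr rfl (fun σ _ => h2 σ)
  rw [Finset.sum_const, nsmul_eq_mul, Finset.card_univ] at h3
  linarith

open Classical in
/-- Random signs on cells. -/
theorem RF.signs [Fintype V] {Γ : Type} {R : V → V → Prop} {D : V → V → ℝ} {Z : Set V}
    (cell : V → Γ) (v : V → ℝ) (hv : ∀ x, 0 ≤ v x)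
    (h1 : ∀ x y, R x y → cell x = cell y → |v x - v y| ≤ D x y)
    (h2 : ∀ x y, R x y → cell x ≠ cell y → v x + v y ≤ D x y)
    (hZ : ∀ x ∈ Z, v x = 0) :
    RF R D Z (fun x y => if cell x = cell y then |v x - v y| else max (v x) (v y)) := by
  -- representatives
  have hrep : ∃ rep : V → V, (∀ x, cell (rep x) = cell x) ∧
      (∀ x y, cell x = cell y → rep x = rep y) := by
    refine ⟨fun x => Classical.choose (⟨x, rfl⟩ : ∃ z, cell z = cell x), ?_, ?_⟩
    · intro x; exact Classical.choose_spec (⟨x, rfl⟩ : ∃ z, cell z = cell x)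
    · intro x y h
      have : ∀ (γ γ' : Γ) (e : ∃ z, cell z = γ) (e' : ∃ z, cell z = γ'), γ = γ' →
          Classical.choose e = Classical.choose e' := by
        intro γ γ' e e' h; subst h; rfl
      exact this _ _ _ _ h
  obtain ⟨rep, hrep1, hrep2⟩ := hrep
  have hcard : (0:ℝ) < (Fintype.card (V → Bool) : ℝ) := by
    have : 0 < Fintype.card (V → Bool) := Fintype.card_pos
    exact_mod_cast this
  refine ⟨V → Bool, inferInstance, fun _ => 1 / (Fintype.card (V → Bool) : ℝ),
    fun σ x => (if σ (rep x) then (1:ℝ) else -1) * v x, ?_, ?_, ?_, ?_, ?_⟩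
  · intro _; positivity
  · rw [Finset.sum_const, nsmul_eq_mul, Finset.card_univ]
    field_simp
  · intro σ x y hxy
    beta_reduce
    by_cases hc : cell x = cell y
    · rw [hrep2 x y hc, ← mul_sub, abs_mul]
      have : |(if σ (rep y) then (1:ℝ) else -1)| = 1 := by split_ifs <;> simp
      rw [this, one_mul]
      exact h1 x y hxy hc
    · refine le_trans ?_ (h2 x y hxy hc)
      refine (abs_sub _ _).trans ?_
      rw [abs_mul, abs_mul]
      have e1 : |(if σ (rep x) then (1:ℝ) else -1)| = 1 := by split_ifs <;> simp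
      have e2 : |(if σ (rep y) then (1:ℝ) else -1)| = 1 := by split_ifs <;> simp
      rw [e1, e2, one_mul, one_mul, abs_of_nonneg (hv x), abs_of_nonneg (hv y)]
  · intro σ x hx
    simp only [hZ x hx, mul_zero]
  · intro x y
    beta_reduce
    by_cases hc : cell x = cell y
    · rw [if_pos hc]
      have : ∀ σ : V → Bool, 1 / (Fintype.card (V → Bool) : ℝ) *
          |(if σ (rep x) then (1:ℝ) else -1) * v x - (if σ (rep y) then (1:ℝ) else -1) * v y| =
          1 / (Fintype.card (V → Bool) : ℝ) * |v x - v y| := by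
        intro σ
        rw [hrep2 x y hc, ← mul_sub, abs_mul]
        have : |(if σ (rep y) then (1:ℝ) else -1)| = 1 := by split_ifs <;> simp
        rw [this, one_mul]
      rw [Finset.sum_congr rfl (fun σ _ => this σ), Finset.sum_const, nsmul_eq_mul,
        Finset.card_univ]
      field_simp
    · rw [if_neg hc, ← Finset.mul_sum]
      have hne : rep x ≠ rep y := by
        intro h
        apply hc
        rw [← hrep1 x, ← hrep1 y, h]
      rw [sum_signs hne]
      have : max (v x) (v y) = (|v x - v y| + |v x + v y|) / 2 := by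
        have := hv x; have := hv y
        rcases max_cases (v x) (v y) with ⟨e, e'⟩ | ⟨e, e'⟩ <;>
          rcases abs_cases (v x - v y) with ⟨g, g'⟩ | ⟨g, g'⟩ <;>
          rcases abs_cases (v x + v y) with ⟨k, k'⟩ | ⟨k, k'⟩ <;> linarith
      rw [this]
      field_simp

end

end Vale.Agent.P235
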