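import Mathlib

namespace Vale.Agent.P235

/-- block index of a real number, blocks of length `2`. -/
noncomputable def blk (t : ℝ) : ℤ := ⌊t / 2⌋

/-- distance to the block boundary. -/
noncomputable def zg (t : ℝ) : ℝ := min (t - 2 * (blk t : ℝ)) (2 * (blk t : ℝ) + 2 - t)

theorem blk_le (t : ℝ) : 2 * (blk t : ℝ) ≤ t := by
  have := Int.floor_le (t / 2)
  unfold blk; linarith

theorem lt_blk (t : ℝ) : t < 2 * (blk t : ℝ) + 2 := by
  have := Int.lt_floor_add_one (t / 2)
  unfold blk; linarith

theorem zg_nonneg (t : ℝ) : 0 ≤ zg t := by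
  have h1 := blk_le t
  have h2 := lt_blk t
  exact le_min (by linarith) (by linarith)

theorem zg_le_one (t : ℝ) : zg t ≤ 1 := by
  unfold zg
  rcases le_total (t - 2 * (blk t : ℝ)) 1 with h | h
  · exact (min_le_left _ _).trans h
  · exact (min_le_right _ _).trans (by linarith)

theorem zg_le_left (t : ℝ) : zg t ≤ t - 2 * (blk t : ℝ) := min_le_left _ _

theorem zg_le_right (t : ℝ) : zg t ≤ 2 * (blk t : ℝ) + 2 - t := min_le_right _ _

theorem zg_same {t t' : ℝ} (h : blk t = blk t') : |zg t - zg t'| ≤ |t - t'| := by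
  unfold zg
  rw [h]
  have e1 : t - 2 * (blk t' : ℝ) - (t' - 2 * (blk t' : ℝ)) = t - t' := by ring
  have e2 : 2 * (blk t' : ℝ) + 2 - t - (2 * (blk t' : ℝ) + 2 - t') = t' - t := by ring
  have := abs_min_sub_min_le_max (t - 2 * (blk t' : ℝ)) (2 * (blk t' : ℝ) + 2 - t)
    (t' - 2 * (blk t' : ℝ)) (2 * (blk t' : ℝ) + 2 - t')
  rw [e1, e2, abs_sub_comm t' t, max_self] at this
  exact this

theorem zg_diff_lt {t t' : ℝ} (h : blk t < blk t') : zg t + zg t' ≤ |t - t'| := by
  have h1 := zg_le_right t
  have h2 := zg_le_left t'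
  have h3 : (blk t : ℝ) + 1 ≤ (blk t' : ℝ) := by exact_mod_cast h
  have h4 := neg_abs_le (t - t')
  linarith

theorem zg_diff {t t' : ℝ} (h : blk t ≠ blk t') : zg t + zg t' ≤ |t - t'| := by
  rcases lt_or_gt_of_ne h with h | h
  · exact zg_diff_lt h
  · have := zg_diff_lt h
    rw [abs_sub_comm]; linarith

theorem blk_eq {t : ℝ} {n : ℤ} (h1 : 2 * (n : ℝ) ≤ t) (h2 : t < 2 * (n : ℝ) + 2) : blk t = n := by
  unfold blk
  rw [Int.floor_eq_iff]
  constructor <;> linarith

theorem zg_cases (t : ℝ) :
    (blk (t + 1) = blk t ∧ zg t = t - 2 * (blk t : ℝ) ∧ zg (t + 1) = 1 - zg t) ∨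
    (blk (t + 1) = blk t + 1 ∧ zg t = 2 * (blk t : ℝ) + 2 - t ∧ zg (t + 1) = 1 - zg t) := by
  have h1 := blk_le t
  have h2 := lt_blk t
  rcases lt_or_ge (t - 2 * (blk t : ℝ)) 1 with h | h
  · left
    have e : blk (t + 1) = blk t := blk_eq (by linarith) (by linarith)
    have e2 : zg t = t - 2 * (blk t : ℝ) := by
      unfold zg; rw [min_eq_left]; linarith
    refine ⟨e, e2, ?_⟩
    rw [e2]
    unfold zg
    rw [e, min_eq_right (by linarith)]
    ring
  · right
    have e : blk (t + 1) = blk t + 1 := blk_eq (by push_cast; linarith) (by push_cast; linarith)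
    have e2 : zg t = 2 * (blk t : ℝ) + 2 - t := by
      unfold zg; rw [min_eq_right]; linarith
    refine ⟨e, e2, ?_⟩
    rw [e2]
    unfold zg
    rw [e]
    push_cast
    rw [min_eq_left (by linarith)]
    ring

/-- The value produced by a random sign on blocks. -/
noncomputable def zval (t t' : ℝ) : ℝ :=
  if blk t = blk t' then |zg t - zg t'| else max (zg t) (zg t')

theorem zval_nonneg (t t' : ℝ) : 0 ≤ zval t t' := by
  unfold zval
  split_ifs
  · exact abs_nonneg _
  · exact le_max_of_le_left (zg_nonneg t)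

theorem zval_sum (t t' : ℝ) : min (|t - t'| / 2) 1 ≤ zval t t' + zval (t + 1) (t' + 1) := by
  have hb1 := blk_le t
  have hb2 := lt_blk t
  have hb1' := blk_le t'
  have hb2' := lt_blk t'
  have n1 := zval_nonneg t t'
  have n2 := zval_nonneg (t + 1) (t' + 1)
  by_cases h0 : blk t = blk t'
  · by_cases h1 : blk (t + 1) = blk (t' + 1)
    · refine (min_le_left _ _).trans ?_
      have : |t - t'| ≤ zval t t' := by
        unfold zval
        rw [if_pos h0]
        rcases zg_cases t with ⟨a, b, c⟩ | ⟨a, b, c⟩ <;>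
          rcases zg_cases t' with ⟨a', b', c'⟩ | ⟨a', b', c'⟩
        · rw [b, b', h0]; apply le_of_eq; congr 1; ring
        · exfalso; rw [a, a', h0] at h1; omega
        · exfalso; rw [a, a', h0] at h1; omega
        · rw [b, b', h0, abs_sub_comm]; apply le_of_eq; congr 1; ring
      have := abs_nonneg (t - t')
      linarith
    · -- shift one differs
      refine (min_le_left _ _).trans ?_
      have : |t - t'| / 2 ≤ zval (t + 1) (t' + 1) := by
        unfold zval
        rw [if_neg h1]
        rcases zg_cases t with ⟨a, b, c⟩ | ⟨a, b, c⟩ <;>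
          rcases zg_cases t' with ⟨a', b', c'⟩ | ⟨a', b', c'⟩
        · exfalso; rw [a, a'] at h1; exact h1 h0
        · rw [c, c', b, b', h0]
          have := le_max_left (1 - (t - 2 * (blk t' : ℝ))) (1 - (2 * (blk t' : ℝ) + 2 - t'))
          have := le_max_right (1 - (t - 2 * (blk t' : ℝ))) (1 - (2 * (blk t' : ℝ) + 2 - t'))
          have h5 := zg_le_one t
          have h6 := zg_le_one t'
          rw [b, h0] at h5
          rw [b'] at h6
          rcases abs_cases (t - t') with ⟨e, _⟩ | ⟨e, _⟩ <;> rw [e] <;> linarith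
        · rw [c, c', b, b', h0]
          have := le_max_left (1 - (2 * (blk t' : ℝ) + 2 - t)) (1 - (t' - 2 * (blk t' : ℝ)))
          have := le_max_right (1 - (2 * (blk t' : ℝ) + 2 - t)) (1 - (t' - 2 * (blk t' : ℝ)))
          have h5 := zg_le_one t
          have h6 := zg_le_one t'
          rw [b, h0] at h5
          rw [b'] at h6
          rcases abs_cases (t - t') with ⟨e, _⟩ | ⟨e, _⟩ <;> rw [e] <;> linarith
        · exfalso; rw [a, a', h0] at h1; exact h1 rfl
      linarith
  · by_cases h1 : blk (t + 1) = blk (t' + 1)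
    · refine (min_le_left _ _).trans ?_
      have : |t - t'| / 2 ≤ zval t t' := by
        unfold zval
        rw [if_neg h0]
        rcases zg_cases t with ⟨a, b, c⟩ | ⟨a, b, c⟩ <;>
          rcases zg_cases t' with ⟨a', b', c'⟩ | ⟨a', b', c'⟩
        · exfalso; rw [a, a'] at h1; exact h0 h1
        · rw [a, a'] at h1
          rw [b, b', h1]
          push_cast
          have := le_max_left (t - 2 * ((blk t' : ℝ) + 1)) (2 * (blk t' : ℝ) + 2 - t')
          have := le_max_right (t - 2 * ((blk t' : ℝ) + 1)) (2 * (blk t' : ℝ) + 2 - t')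
          have h5 := zg_nonneg t
          have h6 := zg_nonneg t'
          rw [b, h1] at h5
          push_cast at h5
          rw [b'] at h6
          rcases abs_cases (t - t') with ⟨e, _⟩ | ⟨e, _⟩ <;> rw [e] <;> linarith
        · rw [a, a'] at h1
          rw [b, b', ← h1]
          push_cast
          have := le_max_left (2 * (blk t : ℝ) + 2 - t) (t' - 2 * ((blk t : ℝ) + 1))
          have := le_max_right (2 * (blk t : ℝ) + 2 - t) (t' - 2 * ((blk t : ℝ) + 1))
          have h5 := zg_nonneg t
          have h6 := zg_nonneg t'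
          rw [b] at h5
          rw [b', ← h1] at h6
          push_cast at h6
          rcases abs_cases (t - t') with ⟨e, _⟩ | ⟨e, _⟩ <;> rw [e] <;> linarith
        · exfalso; rw [a, a'] at h1; apply h0; omega
      linarith
    · refine (min_le_right _ _).trans ?_
      unfold zval
      rw [if_neg h0, if_neg h1]
      have c : zg (t + 1) = 1 - zg t := by
        rcases zg_cases t with ⟨_, _, c⟩ | ⟨_, _, c⟩ <;> exact c
      have := le_max_left (zg t) (zg t')
      have := le_max_left (zg (t + 1)) (zg (t' + 1))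
      linarith

/-! scales -/

/-- level of a positive real, with `τ * 4 ^ lev τ r ≤ r < 4 * τ * 4 ^ lev τ r`. -/
noncomputable def lev (τ r : ℝ) : ℤ := Int.log 4 (r / τ)

noncomputable def sc (τ r : ℝ) : ℝ := τ * (4:ℝ) ^ (lev τ r)

theorem sc_pos {τ : ℝ} (hτ : 0 < τ) (r : ℝ) : 0 < sc τ r := by
  unfold sc; positivity

theorem sc_le {τ r : ℝ} (hτ : 0 < τ) (hr : 0 < r) : sc τ r ≤ r := by
  have h := Int.zpow_log_le_self (b := 4) (r := r / τ) (by norm_num) (div_pos hr hτ)
  unfold sc lev
  rw [le_div_iff₀ hτ] at h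
  push_cast at h
  linarith

theorem lt_sc {τ r : ℝ} (hτ : 0 < τ) : r < 4 * sc τ r := by
  have h := Int.lt_zpow_succ_log_self (b := 4) (by norm_num) (r / τ)
  unfold sc lev
  rw [div_lt_iff₀ hτ, zpow_add₀ (by norm_num)] at h
  push_cast at h
  linarith

theorem sc_congr {τ r r' : ℝ} (h : lev τ r = lev τ r') : sc τ r = sc τ r' := by
  unfold sc; rw [h]

theorem sc_lt {τ r r' : ℝ} (hτ : 0 < τ) (h : lev τ r < lev τ r') : 4 * sc τ r ≤ sc τ r' := by
  unfold sc
  have h1 : (4:ℝ) ^ (lev τ r + 1) ≤ 4 ^ (lev τ r') := zpow_le_zpow_right₀ (by norm_num) h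
  rw [zpow_add₀ (by norm_num), zpow_one] at h1
  nlinarith

theorem lev_eq {τ r : ℝ} (hτ : 0 < τ) {r' : ℝ} (h1 : sc τ r ≤ r')
    (h2 : r' < 4 * sc τ r) : lev τ r' = lev τ r := by
  have hr' : 0 < r' := lt_of_lt_of_le (sc_pos hτ r) h1
  rcases lt_trichotomy (lev τ r') (lev τ r) with h | h | h
  · have := sc_lt hτ h
    have := lt_sc (r := r') hτ
    linarith
  · exact h
  · have := sc_lt hτ h
    have := sc_le hτ hr'
    linarith

/-- choice of the offset. -/
theorem choose_tau {r : ℝ} (hr : 0 < r) :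
    ∃ j : Fin 2, (3/2) * sc (![1, 2] j) r ≤ r ∧ r ≤ 3 * sc (![1, 2] j) r := by
  have h1 := sc_le (τ := 1) one_pos hr
  have h2 := lt_sc (τ := 1) (r := r) one_pos
  rcases le_or_gt ((3/2) * sc 1 r) r with h | h
  · rcases le_or_gt r (3 * sc 1 r) with h' | h'
    · exact ⟨0, h, h'⟩
    · -- sc 2 r = 2 * sc 1 r
      refine ⟨1, ?_⟩
      have e : sc 2 r = 2 * sc 1 r := by
        have a1 := sc_le (τ := 2) two_pos hr
        have a2 := lt_sc (τ := 2) (r := r) two_pos
        have : lev 2 r = lev 1 r := by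
          rcases lt_trichotomy (lev 2 r) (lev 1 r) with h | h | h
          · exfalso
            have h1 : (4:ℝ) ^ (lev 2 r + 1) ≤ 4 ^ (lev 1 r) := zpow_le_zpow_right₀ (by norm_num) h
            rw [zpow_add₀ (by norm_num), zpow_one] at h1
            unfold sc at *
            linarith
          · exact h
          · exfalso
            have h1 : (4:ℝ) ^ (lev 1 r + 1) ≤ 4 ^ (lev 2 r) := zpow_le_zpow_right₀ (by norm_num) h
            rw [zpow_add₀ (by norm_num), zpow_one] at h1
            unfold sc at *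
            linarith
        unfold sc; rw [this]; ring
      show (3/2) * sc 2 r ≤ r ∧ r ≤ 3 * sc 2 r
      rw [e]; constructor <;> linarith
  · refine ⟨1, ?_⟩
    have e : sc 2 r = sc 1 r / 2 := by
      have a1 := sc_le (τ := 2) two_pos hr
      have a2 := lt_sc (τ := 2) (r := r) two_pos
      have : lev 2 r = lev 1 r - 1 := by
        rcases lt_trichotomy (lev 2 r) (lev 1 r - 1) with h | h | h
        · exfalso
          have h1 : (4:ℝ) ^ (lev 2 r + 1 + 1) ≤ 4 ^ (lev 1 r) :=
            zpow_le_zpow_right₀ (by norm_num) (by omega)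
          rw [zpow_add₀ (by norm_num), zpow_one, zpow_add₀ (by norm_num), zpow_one] at h1
          unfold sc at *
          linarith
        · exact h
        · exfalso
          have h1 : (4:ℝ) ^ (lev 1 r) ≤ 4 ^ (lev 2 r) :=
            zpow_le_zpow_right₀ (by norm_num) (by omega)
          unfold sc at *
          linarith
      unfold sc; rw [this, zpow_sub₀ (by norm_num)]; norm_num; ring
    show (3/2) * sc 2 r ≤ r ∧ r ≤ 3 * sc 2 r
    rw [e]; constructor <;> linarith

end Vale.Agent.P235
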