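import Vale.Agent.Lib.P235.Local
import Vale.Agent.Lib.P235.Zig

namespace Vale.Agent.P235

open Finset

noncomputable def bb (τ r : ℝ) : ℝ := min (r - sc τ r) (4 * sc τ r - r)

theorem bb_nonneg {τ r : ℝ} (hτ : 0 < τ) (hr : 0 < r) : 0 ≤ bb τ r := by
  have := sc_le hτ hr
  have := lt_sc (r := r) hτ
  exact le_min (by linarith) (by linarith)

theorem bb_le {τ r : ℝ} (hτ : 0 < τ) : bb τ r ≤ r :=
  (min_le_left _ _).trans (by have := sc_pos hτ r; linarith)

theorem bb_same {τ r r' : ℝ} (h : lev τ r = lev τ r') : |bb τ r - bb τ r'| ≤ |r - r'| := by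
  unfold bb
  rw [sc_congr h]
  have e1 : r - sc τ r' - (r' - sc τ r') = r - r' := by ring
  have e2 : 4 * sc τ r' - r - (4 * sc τ r' - r') = r' - r := by ring
  have := abs_min_sub_min_le_max (r - sc τ r') (4 * sc τ r' - r) (r' - sc τ r') (4 * sc τ r' - r')
  rw [e1, e2, abs_sub_comm r' r, max_self] at this
  exact this

theorem bb_diff {τ r r' : ℝ} (hτ : 0 < τ) (h : lev τ r ≠ lev τ r') :
    bb τ r + bb τ r' ≤ |r - r'| := by
  rcases lt_or_gt_of_ne h with h | h
  · have h1 := sc_lt hτ h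
    have h2 : bb τ r ≤ 4 * sc τ r - r := min_le_right _ _
    have h3 : bb τ r' ≤ r' - sc τ r' := min_le_left _ _
    have := neg_abs_le (r - r')
    linarith
  · have h1 := sc_lt hτ h
    have h2 : bb τ r' ≤ 4 * sc τ r' - r' := min_le_right _ _
    have h3 : bb τ r ≤ r - sc τ r := min_le_left _ _
    have := le_abs_self (r - r')
    linarith

section
variable {V Λ : Type}

open Classical in
/-- the value -/
noncomputable def lval (τ c : ℝ) (r f : V → ℝ) (x : V) : ℝ :=
  if r x = 0 then 0 else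
    min (bb τ (r x)) (sc τ (r x) / 4 * zg (f x / (sc τ (r x) / 4) + c))

/-- the cell -/
noncomputable def lcell (τ c : ℝ) (lab : V → Λ) (r f : V → ℝ) (x : V) : ℤ × Λ × ℤ :=
  (lev τ (r x), lab x, blk (f x / (sc τ (r x) / 4) + c))

theorem lval_nonneg {τ c : ℝ} (hτ : 0 < τ) {r f : V → ℝ} (hr0 : ∀ x, 0 ≤ r x) (x : V) :
    0 ≤ lval τ c r f x := by
  unfold lval
  split_ifs with h
  · exact le_rfl
  · refine le_min (bb_nonneg hτ (lt_of_le_of_ne (hr0 x) (Ne.symm h))) ?_
    have := sc_pos hτ (r x)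
    have := zg_nonneg (f x / (sc τ (r x) / 4) + c)
    positivity

theorem lval_le {τ c : ℝ} (hτ : 0 < τ) {r f : V → ℝ} (hr0 : ∀ x, 0 ≤ r x) (x : V) :
    lval τ c r f x ≤ r x := by
  unfold lval
  split_ifs with h
  · exact hr0 x
  · exact (min_le_left _ _).trans (bb_le hτ)

theorem lval_of_pos {τ c : ℝ} {r f : V → ℝ} {x : V} (h : r x ≠ 0) :
    lval τ c r f x = min (bb τ (r x)) (sc τ (r x) / 4 * zg (f x / (sc τ (r x) / 4) + c)) := by
  unfold lval; rw [if_neg h]

theorem lval_same {τ c : ℝ} (hτ : 0 < τ) {lab : V → Λ} {r f : V → ℝ} (hr0 : ∀ x, 0 ≤ r x)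
    {x y : V} {d ρ : ℝ} (hd : |r x - r y| ≤ d)
    (hf : |f x - f y| ≤ ρ) (hor : ρ ≤ d ∨ r x + r y ≤ d)
    (h : lcell τ c lab r f x = lcell τ c lab r f y) :
    |lval τ c r f x - lval τ c r f y| ≤ d := by
  have n1 := lval_nonneg (c := c) (f := f) hτ hr0 x
  have n2 := lval_nonneg (c := c) (f := f) hτ hr0 y
  have m1 := lval_le (c := c) (f := f) hτ hr0 x
  have m2 := lval_le (c := c) (f := f) hτ hr0 y
  have p1 := hr0 x
  have p2 := hr0 y
  by_cases hx : r x = 0
  · rw [hx] at hd m1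
    rw [abs_le] at hd ⊢
    constructor <;> linarith [hd.1, hd.2]
  by_cases hy : r y = 0
  · rw [hy] at hd m2
    rw [abs_le] at hd ⊢
    constructor <;> linarith [hd.1, hd.2]
  rcases hor with hor | hor
  · rw [lval_of_pos hx, lval_of_pos hy]
    simp only [lcell, Prod.mk.injEq] at h
    obtain ⟨hl, _, hb⟩ := h
    have hs := sc_congr hl
    have ha := sc_pos hτ (r y)
    rw [hs] at hb ⊢
    refine (abs_min_sub_min_le_max _ _ _ _).trans (max_le ((bb_same hl).trans hd) ?_)
    rw [← mul_sub, abs_mul, abs_of_pos (by linarith : 0 < sc τ (r y) / 4)]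
    have := zg_same hb
    have e : f x / (sc τ (r y) / 4) + c - (f y / (sc τ (r y) / 4) + c) =
        (f x - f y) / (sc τ (r y) / 4) := by ring
    rw [e, abs_div, abs_of_pos (by linarith : 0 < sc τ (r y) / 4), le_div_iff₀ (by linarith)] at this
    linarith
  · rw [abs_le]; constructor <;> linarith

theorem lval_diff {τ c : ℝ} (hτ : 0 < τ) {lab : V → Λ} {r f : V → ℝ} (hr0 : ∀ x, 0 ≤ r x)
    {x y : V} {d ρ : ℝ} (hd : |r x - r y| ≤ d)
    (hf : lab x = lab y → |f x - f y| ≤ ρ) (hor : lab x = lab y → ρ ≤ d ∨ r x + r y ≤ d)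
    (hdiff : lab x ≠ lab y → r x + r y ≤ d)
    (h : lcell τ c lab r f x ≠ lcell τ c lab r f y) :
    lval τ c r f x + lval τ c r f y ≤ d := by
  have n1 := lval_nonneg (c := c) (f := f) hτ hr0 x
  have n2 := lval_nonneg (c := c) (f := f) hτ hr0 y
  have m1 := lval_le (c := c) (f := f) hτ hr0 x
  have m2 := lval_le (c := c) (f := f) hτ hr0 y
  have p1 := hr0 x
  have p2 := hr0 y
  by_cases hx : r x = 0
  · rw [hx] at hd m1
    rw [abs_le] at hd
    linarith [hd.1, hd.2]
  by_cases hy : r y = 0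
  · rw [hy] at hd m2
    rw [abs_le] at hd
    linarith [hd.1, hd.2]
  by_cases hl : lab x = lab y
  · rcases hor hl with hor | hor
    · by_cases hlev : lev τ (r x) = lev τ (r y)
      · have hb : blk (f x / (sc τ (r x) / 4) + c) ≠ blk (f y / (sc τ (r y) / 4) + c) := by
          intro hb; apply h; unfold lcell; rw [hlev, hl, hb]
        have hs := sc_congr hlev
        have ha := sc_pos hτ (r y)
        have := zg_diff hb
        have q1 : lval τ c r f x ≤ sc τ (r x) / 4 * zg (f x / (sc τ (r x) / 4) + c) := by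
          rw [lval_of_pos hx]; exact min_le_right _ _
        have q2 : lval τ c r f y ≤ sc τ (r y) / 4 * zg (f y / (sc τ (r y) / 4) + c) := by
          rw [lval_of_pos hy]; exact min_le_right _ _
        rw [hs] at this q1
        have e : f x / (sc τ (r y) / 4) + c - (f y / (sc τ (r y) / 4) + c) =
            (f x - f y) / (sc τ (r y) / 4) := by ring
        rw [e, abs_div, abs_of_pos (by linarith : 0 < sc τ (r y) / 4),
          le_div_iff₀ (by linarith)] at this
        have := hf hl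
        nlinarith
      · have q1 : lval τ c r f x ≤ bb τ (r x) := by rw [lval_of_pos hx]; exact min_le_left _ _
        have q2 : lval τ c r f y ≤ bb τ (r y) := by rw [lval_of_pos hy]; exact min_le_left _ _
        have := bb_diff hτ hlev
        linarith
    · linarith
  · have := hdiff hl
    linarith

/-- the comparison function of one component -/
noncomputable def lM (τ c : ℝ) (lab : V → Λ) (r f : V → ℝ) (x y : V) : ℝ :=
  open Classical in
  if lcell τ c lab r f x = lcell τ c lab r f y then |lval τ c r f x - lval τ c r f y|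
    else max (lval τ c r f x) (lval τ c r f y)

theorem lM_nonneg {τ c : ℝ} (hτ : 0 < τ) {lab : V → Λ} {r f : V → ℝ} (hr0 : ∀ x, 0 ≤ r x)
    (x y : V) : 0 ≤ lM τ c lab r f x y := by
  unfold lM
  split_ifs
  · exact abs_nonneg _
  · exact le_max_of_le_left (lval_nonneg hτ hr0 x)

theorem lM_RF [Fintype V] {τ c : ℝ} (hτ : 0 < τ) {R : V → V → Prop} {D ρ : V → V → ℝ} {lab : V → Λ}
    {r f : V → ℝ} (hr0 : ∀ x, 0 ≤ r x) (hr : ∀ x y, R x y → |r x - r y| ≤ D x y)
    (hf : ∀ x y, R x y → lab x = lab y → |f x - f y| ≤ ρ x y)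
    (hor : ∀ x y, R x y → lab x = lab y → ρ x y ≤ D x y ∨ r x + r y ≤ D x y)
    (hdiff : ∀ x y, R x y → lab x ≠ lab y → r x + r y ≤ D x y) :
    RF R D {x | r x = 0} (lM τ c lab r f) := by
  have main := RF.signs (R := R) (D := D) (Z := {x | r x = 0})
    (lcell τ c lab r f) (lval τ c r f) (lval_nonneg hτ hr0) ?_ ?_ ?_
  · convert main using 1
    funext x y
    unfold lM
    by_cases hc : lcell τ c lab r f x = lcell τ c lab r f y
    · rw [if_pos hc, if_pos hc]
    · rw [if_neg hc, if_neg hc]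
  · intro x y hxy hc
    have hl : lab x = lab y := by
      simp only [lcell, Prod.mk.injEq] at hc; exact hc.2.1
    exact lval_same hτ hr0 (hr x y hxy) (hf x y hxy hl) (hor x y hxy hl) hc
  · intro x y hxy hc
    exact lval_diff hτ hr0 (hr x y hxy) (hf x y hxy) (hor x y hxy) (hdiff x y hxy) hc
  · intro x hx
    have hx' : r x = 0 := hx
    unfold lval; rw [if_pos hx']

theorem lval_mid {τ c : ℝ} (hτ : 0 < τ) {r f : V → ℝ} {x : V}
    (h1 : (5/4) * sc τ (r x) ≤ r x) (h2 : r x ≤ (15/4) * sc τ (r x)) :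
    lval τ c r f x = sc τ (r x) / 4 * zg (f x / (sc τ (r x) / 4) + c) := by
  have hs := sc_pos hτ (r x)
  rw [lval_of_pos (by linarith)]
  apply min_eq_right
  have hz := zg_le_one (f x / (sc τ (r x) / 4) + c)
  have : sc τ (r x) / 4 * zg (f x / (sc τ (r x) / 4) + c) ≤ sc τ (r x) / 4 := by nlinarith
  refine this.trans (le_min (by linarith) (by linarith))

theorem lM_same {τ c : ℝ} (hτ : 0 < τ) {lab : V → Λ} {r f : V → ℝ} {x y : V}
    (hl : lab x = lab y) (hlev : lev τ (r x) = lev τ (r y))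
    (h1 : (5/4) * sc τ (r x) ≤ r x) (h2 : r x ≤ (15/4) * sc τ (r x))
    (h3 : (5/4) * sc τ (r x) ≤ r y) (h4 : r y ≤ (15/4) * sc τ (r x)) :
    sc τ (r x) / 4 * zval (f x / (sc τ (r x) / 4) + c) (f y / (sc τ (r x) / 4) + c) ≤
      lM τ c lab r f x y := by
  have hs := sc_congr hlev
  have hpos := sc_pos hτ (r y)
  rw [hs] at h3 h4
  have e1 := lval_mid (c := c) (f := f) hτ h1 h2
  have e2 := lval_mid (c := c) (f := f) hτ h3 h4
  unfold lM zval
  rw [e1, e2]
  simp only [lcell, Prod.mk.injEq, hs, hlev, hl, true_and]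
  split_ifs
  · rw [← mul_sub, abs_mul, abs_of_pos (by linarith : 0 < sc τ (r y) / 4)]
  · rw [mul_max_of_nonneg _ _ (by linarith)]

theorem lM_other {τ c : ℝ} (hτ : 0 < τ) {lab : V → Λ} {r f : V → ℝ} {x y : V}
    (hl : lab x ≠ lab y)
    (h1 : (5/4) * sc τ (r x) ≤ r x) (h2 : r x ≤ (15/4) * sc τ (r x)) :
    sc τ (r x) / 4 * zg (f x / (sc τ (r x) / 4) + c) ≤
      lM τ c lab r f x y := by
  have e1 := lval_mid (c := c) (f := f) hτ h1 h2
  unfold lM
  rw [if_neg (by intro h; simp only [lcell, Prod.mk.injEq] at h; exact hl h.2.1), e1]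
  exact le_max_left _ _

/-- average over shifts and over the family -/
noncomputable def lMM {ι : Type} [Fintype ι] (w : ι → ℝ) (fam : ι → V → ℝ) (τ : ℝ)
    (lab : V → Λ) (r : V → ℝ) (x y : V) : ℝ :=
  ∑ p : Fin 2 × ι, (w p.2 / 2) * lM τ (p.1 : ℝ) lab r (fam p.2) x y

theorem lMM_eq {ι : Type} [Fintype ι] (w : ι → ℝ) (fam : ι → V → ℝ) (τ : ℝ)
    (lab : V → Λ) (r : V → ℝ) (x y : V) :
    lMM w fam τ lab r x y = ∑ i, (w i / 2) * (lM τ 0 lab r (fam i) x y + lM τ 1 lab r (fam i) x y) := by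
  unfold lMM
  rw [Fintype.sum_prod_type, Fin.sum_univ_two, ← Finset.sum_add_distrib]
  refine Finset.sum_congr rfl (fun i _ => ?_)
  simp only [Fin.val_zero, Fin.val_one, Nat.cast_zero, Nat.cast_one]
  ring

theorem lMM_RF [Fintype V] {ι : Type} [Fintype ι] {w : ι → ℝ} {fam : ι → V → ℝ}
    (hw : ∀ i, 0 ≤ w i) (hw1 : ∑ i, w i = 1) {τ : ℝ} (hτ : 0 < τ) {R : V → V → Prop}
    {D ρ : V → V → ℝ} {lab : V → Λ} {r : V → ℝ} (hr0 : ∀ x, 0 ≤ r x)
    (hr : ∀ x y, R x y → |r x - r y| ≤ D x y)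
    (hf : ∀ i x y, R x y → lab x = lab y → |fam i x - fam i y| ≤ ρ x y)
    (hor : ∀ x y, R x y → lab x = lab y → ρ x y ≤ D x y ∨ r x + r y ≤ D x y)
    (hdiff : ∀ x y, R x y → lab x ≠ lab y → r x + r y ≤ D x y) :
    RF R D {x | r x = 0} (lMM w fam τ lab r) := by
  refine RF.convex (κ := Fin 2 × ι) (fun p => w p.2 / 2) (fun p => by have := hw p.2; positivity) ?_
    (fun p x y => lM τ (p.1 : ℝ) lab r (fam p.2) x y)
    (fun p => lM_RF hτ hr0 hr (hf p.2) hor hdiff)
  rw [Fintype.sum_prod_type, Fin.sum_univ_two, ← Finset.sum_add_distrib]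
  have : ∀ i, w i / 2 + w i / 2 = w i := fun i => by ring
  simp only [this]
  exact hw1

theorem lMM_nonneg {ι : Type} [Fintype ι] {w : ι → ℝ} {fam : ι → V → ℝ}
    (hw : ∀ i, 0 ≤ w i) {τ : ℝ} (hτ : 0 < τ) {lab : V → Λ} {r : V → ℝ} (hr0 : ∀ x, 0 ≤ r x)
    (x y : V) : 0 ≤ lMM w fam τ lab r x y :=
  Finset.sum_nonneg (fun p _ => mul_nonneg (by have := hw p.2; positivity) (lM_nonneg hτ hr0 x y))

theorem lMM_lower_other {ι : Type} [Fintype ι] {w : ι → ℝ} {fam : ι → V → ℝ}
    (hw : ∀ i, 0 ≤ w i) (hw1 : ∑ i, w i = 1) {τ : ℝ} (hτ : 0 < τ)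
    {lab : V → Λ} {r : V → ℝ} {x y : V} (hl : lab x ≠ lab y)
    (h1 : (5/4) * sc τ (r x) ≤ r x) (h2 : r x ≤ (15/4) * sc τ (r x)) :
    sc τ (r x) / 8 ≤ lMM w fam τ lab r x y := by
  have hs := sc_pos hτ (r x)
  rw [lMM_eq]
  have : ∑ i, w i * (sc τ (r x) / 8) ≤
      ∑ i, (w i / 2) * (lM τ 0 lab r (fam i) x y + lM τ 1 lab r (fam i) x y) := by
    refine Finset.sum_le_sum (fun i _ => ?_)
    have a1 := lM_other (c := 0) (f := fam i) hτ hl h1 h2
    have a2 := lM_other (c := 1) (f := fam i) hτ hl h1 h2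
    have hc : zg (fam i x / (sc τ (r x) / 4) + 1) = 1 - zg (fam i x / (sc τ (r x) / 4) + 0) := by
      rw [add_zero]
      rcases zg_cases (fam i x / (sc τ (r x) / 4)) with ⟨_, _, c⟩ | ⟨_, _, c⟩ <;> exact c
    rw [hc] at a2
    have hwi := hw i
    have : sc τ (r x) / 4 ≤ lM τ 0 lab r (fam i) x y + lM τ 1 lab r (fam i) x y := by nlinarith
    nlinarith
  rw [← Finset.sum_mul, hw1, one_mul] at this
  exact this

theorem lMM_lower_same {ι : Type} [Fintype ι] {w : ι → ℝ} {fam : ι → V → ℝ}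
    (hw : ∀ i, 0 ≤ w i) {τ κ ρ : ℝ} (hτ : 0 < τ) (hκ : 1 ≤ κ)
    {lab : V → Λ} {r : V → ℝ} {x y : V} (hl : lab x = lab y)
    (hf : ∀ i, |fam i x - fam i y| ≤ ρ) (hf' : ρ ≤ κ * ∑ i, w i * |fam i x - fam i y|)
    (hρ : 0 < ρ)
    (hlev : lev τ (r x) = lev τ (r y))
    (h1 : (5/4) * sc τ (r x) ≤ r x) (h2 : r x ≤ (15/4) * sc τ (r x))
    (h3 : (5/4) * sc τ (r x) ≤ r y) (h4 : r y ≤ (15/4) * sc τ (r x)) :
    min (ρ / 4) (sc τ (r x) / 8) ≤ κ * lMM w fam τ lab r x y := by
  have hs := sc_pos hτ (r x)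
  rw [lMM_eq]
  set a := sc τ (r x) / 4 with ha
  have hapos : 0 < a := by positivity
  set q := min (1 / 4) (a / 2 / ρ) with hq
  have hq0 : 0 ≤ q := le_min (by norm_num) (by positivity)
  have : ∑ i, q * (w i * |fam i x - fam i y|) ≤
      ∑ i, (w i / 2) * (lM τ 0 lab r (fam i) x y + lM τ 1 lab r (fam i) x y) := by
    refine Finset.sum_le_sum (fun i _ => ?_)
    have a1 := lM_same (c := 0) (f := fam i) hτ hl hlev h1 h2 h3 h4
    have a2 := lM_same (c := 1) (f := fam i) hτ hl hlev h1 h2 h3 h4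
    rw [← ha] at a1 a2
    rw [add_zero, add_zero] at a1
    have hz := zval_sum (fam i x / a) (fam i y / a)
    have e : |fam i x / a - fam i y / a| = |fam i x - fam i y| / a := by
      rw [← sub_div, abs_div, abs_of_pos hapos]
    rw [e] at hz
    have hδ := hf i
    have hδ0 := abs_nonneg (fam i x - fam i y)
    have hwi := hw i
    have key : 2 * q * |fam i x - fam i y| ≤ a * min (|fam i x - fam i y| / a / 2) 1 := by
      rw [mul_min_of_nonneg _ _ hapos.le]
      refine le_min ?_ ?_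
      · have : q ≤ 1 / 4 := min_le_left _ _
        have e2 : a * (|fam i x - fam i y| / a / 2) = |fam i x - fam i y| / 2 := by
          field_simp
        rw [e2]; nlinarith
      · have h5 : q ≤ a / 2 / ρ := min_le_right _ _
        have h6 : q * ρ ≤ a / 2 := by rwa [le_div_iff₀ hρ] at h5
        nlinarith
    have : 2 * q * |fam i x - fam i y| ≤ lM τ 0 lab r (fam i) x y + lM τ 1 lab r (fam i) x y := by
      refine key.trans ?_
      have : a * min (|fam i x - fam i y| / a / 2) 1 ≤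
        a * (zval (fam i x / a) (fam i y / a) + zval (fam i x / a + 1) (fam i y / a + 1)) :=
        mul_le_mul_of_nonneg_left hz hapos.le
      linarith
    nlinarith
  rw [← Finset.mul_sum] at this
  have h7 : min (ρ / 4) (sc τ (r x) / 8) = q * ρ := by
    rw [hq, min_mul_of_nonneg _ _ hρ.le]
    congr 1
    · ring
    · rw [ha]; field_simp; norm_num
  rw [h7]
  calc q * ρ ≤ q * (κ * ∑ i, w i * |fam i x - fam i y|) := mul_le_mul_of_nonneg_left hf' hq0
    _ = κ * (q * ∑ i, w i * |fam i x - fam i y|) := by ring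
    _ ≤ _ := mul_le_mul_of_nonneg_left this (by linarith)

theorem ratio_aux {τ r r' : ℝ} (hτ : 0 < τ)
    (h1 : (3/2) * sc τ r ≤ r) (h2 : r ≤ 3 * sc τ r) (h : |r - r'| < (r + r') / 32) :
    lev τ r = lev τ r' ∧ (5/4) * sc τ r ≤ r' ∧ r' ≤ (15/4) * sc τ r := by
  rw [abs_lt] at h
  have hs := sc_pos hτ r
  have e1 : (5/4) * sc τ r ≤ r' := by linarith [h.1, h.2]
  have e2 : r' ≤ (15/4) * sc τ r := by linarith [h.1, h.2]
  exact ⟨(lev_eq hτ (by linarith) (by linarith)).symm, e1, e2⟩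

/-- The localization lemma. -/
theorem localize [Fintype V] {R : V → V → Prop} {D ρ : V → V → ℝ} {lab : V → Λ} {r : V → ℝ}
    {ι : Type} [Fintype ι] {w : ι → ℝ} {fam : ι → V → ℝ} {κ : ℝ} (hκ : 1 ≤ κ)
    (hw : ∀ i, 0 ≤ w i) (hw1 : ∑ i, w i = 1)
    (hr0 : ∀ x, 0 ≤ r x) (hr : ∀ x y, R x y → |r x - r y| ≤ D x y)
    (hf : ∀ i x y, R x y → lab x = lab y → |fam i x - fam i y| ≤ ρ x y)
    (hf' : ∀ x y, R x y → lab x = lab y → ρ x y ≤ κ * ∑ i, w i * |fam i x - fam i y|)
    (hDρ : ∀ x y, R x y → lab x = lab y → D x y ≤ ρ x y)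
    (hor : ∀ x y, R x y → lab x = lab y → ρ x y ≤ D x y ∨ r x + r y ≤ D x y)
    (hdiff : ∀ x y, R x y → lab x ≠ lab y → r x + r y ≤ D x y) :
    ∃ M, RF R D {x | r x = 0} M ∧
      ∀ x y, R x y → min (D x y) (r x + r y) ≤ 300 * κ * M x y := by
  refine ⟨fun x y => ∑ j : Fin 3, (1/3 : ℝ) *
    ((![fun x y => |r x - r y|, lMM w fam 1 lab r, lMM w fam 2 lab r] : Fin 3 → V → V → ℝ) j x y),
    RF.convex _ (fun _ => by norm_num) (by simp) _ ?_, ?_⟩
  · intro k
    fin_cases k
    · exact RF.single r hr (fun x hx => hx)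
    · exact lMM_RF hw hw1 one_pos hr0 hr hf hor hdiff
    · exact lMM_RF hw hw1 two_pos hr0 hr hf hor hdiff
  · intro x y hxy
    beta_reduce
    rw [Fin.sum_univ_three]
    simp only [Matrix.cons_val_zero, Matrix.cons_val_one, Matrix.cons_val]
    have n0 := abs_nonneg (r x - r y)
    have n1 := lMM_nonneg (fam := fam) (lab := lab) hw one_pos hr0 x y
    have n2 := lMM_nonneg (fam := fam) (lab := lab) hw two_pos hr0 x y
    set m := min (D x y) (r x + r y) with hm
    have hmr : m ≤ r x + r y := min_le_right _ _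
    have hmD : m ≤ D x y := min_le_left _ _
    have rx := hr0 x
    have ry := hr0 y
    rcases le_or_gt (m / 32) (|r x - r y|) with hcase | hcase
    · nlinarith
    · have hmpos : 0 < m := by linarith
      have hratio : |r x - r y| < (r x + r y) / 32 := by linarith
      have hrx : 0 < r x := by
        rcases lt_or_eq_of_le rx with h | h
        · exact h
        · exfalso
          rw [← h] at hratio
          rw [zero_sub, abs_neg, abs_of_nonneg ry] at hratio
          linarith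
      -- a bound at the good offset
      have good : ∀ τ : ℝ, 0 < τ → (3/2) * sc τ (r x) ≤ r x → r x ≤ 3 * sc τ (r x) →
          m / 60 ≤ κ * lMM w fam τ lab r x y := by
        intro τ hτ h1 h2
        obtain ⟨hlev, h3, h4⟩ := ratio_aux hτ h1 h2 hratio
        have hs := sc_pos hτ (r x)
        have hmU : m / 60 ≤ sc τ (r x) / 8 := by linarith
        by_cases hl : lab x = lab y
        · have hD := hDρ x y hxy hl
          refine le_trans ?_ (lMM_lower_same hw hτ hκ hl (fun i => hf i x y hxy hl)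
            (hf' x y hxy hl) (by linarith) hlev (by linarith) (by linarith) h3 h4)
          exact le_min (by linarith) hmU
        · have := lMM_lower_other (fam := fam) (r := r) (x := x) (y := y) hw hw1 hτ hl
            (by linarith) (by linarith)
          have h5 : 0 ≤ lMM w fam τ lab r x y := by linarith
          nlinarith
      obtain ⟨j, hj1, hj2⟩ := choose_tau hrx
      fin_cases j
      · have := good 1 one_pos hj1 hj2
        nlinarith
      · have := good 2 two_pos hj1 hj2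
        nlinarith

end

end Vale.Agent.P235
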