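import Vale.Agent.Lib.P235.Piece

namespace Vale.Agent.P235

open Finset

/-- One step upwards: `p, q` are the attaching points of `x`, and `u` is an end of the pair
along which the piece is glued to its parent. All quantities are real numbers. -/
theorem option_real {K κ θ A α Dxp Dxq Dup Duq Dxu Fup Fuq Fpq : ℝ}
    (hK : 2 * κ ≤ K * θ) (hθ0 : 0 < θ) (hθ1 : θ ≤ 1) (hκ : 1 ≤ κ) (hK0 : 0 ≤ K)
    (hDup0 : 0 ≤ Dup) (hDuq0 : 0 ≤ Duq)
    (hup : Fup ≤ Dup) (huq : Fuq ≤ Duq) (hup' : Dup ≤ κ * Fup) (huq' : Duq ≤ κ * Fuq)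
    (hs : θ * min Dup Duq ≤ (Fup + Fuq - Fpq) / 2)
    (hmp : 0 ≤ Fup + Fpq - Fuq) (hmq : 0 ≤ Fuq + Fpq - Fup)
    (hxp : Dxp ≤ K * (A + (1 - α) * Fpq)) (hxq : Dxq ≤ K * (A + α * Fpq))
    (h1 : Dxu ≤ Dxp + Dup) (h2 : Dxu ≤ Dxq + Duq) :
    Dxu ≤ K * (A + α * Fup + (1 - α) * Fuq) := by
  set s := (Fup + Fuq - Fpq) / 2 with hsdef
  set mp := (Fup + Fpq - Fuq) / 2 with hmpdef
  set mq := (Fuq + Fpq - Fup) / 2 with hmqdef
  have e1 : Fup = s + mp := by rw [hsdef, hmpdef]; ring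
  have e2 : Fuq = s + mq := by rw [hsdef, hmqdef]; ring
  have e3 : Fpq = mp + mq := by rw [hmpdef, hmqdef]; ring
  have hmp0 : 0 ≤ mp := by rw [hmpdef]; linarith
  have hmq0 : 0 ≤ mq := by rw [hmqdef]; linarith
  have hmin0 : 0 ≤ min Dup Duq := le_min hDup0 hDuq0
  have hs0 : 0 ≤ s := le_trans (mul_nonneg hθ0.le hmin0) hs
  -- the two sufficient conditions
  have suff1 : Dup ≤ K * (s + (2 * α - 1) * mp) → Dxu ≤ K * (A + α * Fup + (1 - α) * Fuq) := by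
    intro h
    have : K * (A + α * Fup + (1 - α) * Fuq) = K * (A + (1 - α) * Fpq) +
        K * (s + (2 * α - 1) * mp) := by rw [e1, e2, e3]; ring
    linarith
  have suff2 : Duq ≤ K * (s + (1 - 2 * α) * mq) → Dxu ≤ K * (A + α * Fup + (1 - α) * Fuq) := by
    intro h
    have : K * (A + α * Fup + (1 - α) * Fuq) = K * (A + α * Fpq) +
        K * (s + (1 - 2 * α) * mq) := by rw [e1, e2, e3]; ring
    linarith
  -- general estimates
  have A1 : ∀ D m c : ℝ, 0 ≤ D → 0 ≤ m → m ≤ D → θ * D ≤ s → -(θ / 2) ≤ c →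
      D ≤ K * (s + c * m) := by
    intro D m c hD hm hmD hsD hc
    have t1 : -(θ / 2) * m ≤ c * m := mul_le_mul_of_nonneg_right hc hm
    have t2 : (θ / 2) * m ≤ (θ / 2) * D := mul_le_mul_of_nonneg_left hmD (by linarith)
    have t3 : θ / 2 * D ≤ s + c * m := by linarith
    have t4 : K * (θ / 2 * D) ≤ K * (s + c * m) := mul_le_mul_of_nonneg_left t3 hK0
    have t5 : K * (θ / 2 * D) = (K * θ) / 2 * D := by ring
    have t6 : D ≤ (K * θ) / 2 * D := by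
      have : 1 ≤ (K * θ) / 2 := by linarith
      nlinarith
    linarith
  have A2 : ∀ D m c : ℝ, D ≤ κ * (s + m) → 0 ≤ m → θ / 2 ≤ c → 
      D ≤ K * (s + c * m) := by
    intro D m c hD hm hc
    have t1 : θ / 2 * m ≤ c * m := mul_le_mul_of_nonneg_right hc hm
    have t2 : θ / 2 * s ≤ s := by nlinarith
    have t3 : θ / 2 * (s + m) ≤ s + c * m := by linarith
    have t4 : K * (θ / 2 * (s + m)) ≤ K * (s + c * m) := mul_le_mul_of_nonneg_left t3 hK0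
    have t5 : K * (θ / 2 * (s + m)) = (K * θ) / 2 * (s + m) := by ring
    have t6 : κ * (s + m) ≤ (K * θ) / 2 * (s + m) :=
      mul_le_mul_of_nonneg_right (by linarith) (by linarith)
    linarith
  rcases le_total Dup Duq with hle | hle
  · rw [min_eq_left hle] at hs
    rcases le_total (-(θ / 2)) (2 * α - 1) with hc | hc
    · exact suff1 (A1 _ _ _ hDup0 hmp0 (by linarith) hs hc)
    · refine suff2 (A2 _ _ _ (by rw [← e2]; exact huq') hmq0 (by linarith))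
  · rw [min_eq_right hle] at hs
    rcases le_total (-(θ / 2)) (1 - 2 * α) with hc | hc
    · exact suff2 (A1 _ _ _ hDuq0 hmq0 (by linarith) hs hc)
    · refine suff1 (A2 _ _ _ (by rw [← e1]; exact hup') hmp0 (by linarith))

theorem conv_aux {α β Fab Fap Faq Fbp Fbq : ℝ}
    (hα0 : 0 ≤ α) (hα1 : α ≤ 1) (hβ0 : 0 ≤ β) (hβ1 : β ≤ 1)
    (fap : 0 ≤ Fap) (faq : 0 ≤ Faq) (fbp : 0 ≤ Fbp) (fbq : 0 ≤ Fbq)
    (t1 : Fab ≤ Fap + Fbp) (t2 : Fab ≤ Faq + Fbq) :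
    α * (1 - α) * Fab ≤ α * (β * Fap + (1 - β) * Faq) + (1 - α) * (β * Fbp + (1 - β) * Fbq) := by
  have hα' : 0 ≤ 1 - α := by linarith
  have hβ' : 0 ≤ 1 - β := by linarith
  have w1 : 0 ≤ α * β := mul_nonneg hα0 hβ0
  have w2 : 0 ≤ α * (1 - β) := mul_nonneg hα0 hβ'
  have w3 : 0 ≤ (1 - α) * β := mul_nonneg hα' hβ0
  have w4 : 0 ≤ (1 - α) * (1 - β) := mul_nonneg hα' hβ'
  have u1 : (α * (1 - α) * β) * Fab ≤ (α * (1 - α) * β) * (Fap + Fbp) :=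
    mul_le_mul_of_nonneg_left t1 (by positivity)
  have u2 : (α * (1 - α) * (1 - β)) * Fab ≤ (α * (1 - α) * (1 - β)) * (Faq + Fbq) :=
    mul_le_mul_of_nonneg_left t2 (by positivity)
  have v1 : (1 - α) * (α * β * Fap) ≤ α * β * Fap :=
    mul_le_of_le_one_left (mul_nonneg w1 fap) (by linarith)
  have v2 : (1 - α) * (α * (1 - β) * Faq) ≤ α * (1 - β) * Faq :=
    mul_le_of_le_one_left (mul_nonneg w2 faq) (by linarith)
  have v3 : α * ((1 - α) * β * Fbp) ≤ (1 - α) * β * Fbp :=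
    mul_le_of_le_one_left (mul_nonneg w3 fbp) (by linarith)
  have v4 : α * ((1 - α) * (1 - β) * Fbq) ≤ (1 - α) * (1 - β) * Fbq :=
    mul_le_of_le_one_left (mul_nonneg w4 fbq) (by linarith)
  have e : α * (1 - α) * Fab = (α * (1 - α) * β) * Fab + (α * (1 - α) * (1 - β)) * Fab := by ring
  have e1 : (α * (1 - α) * β) * (Fap + Fbp) = (1 - α) * (α * β * Fap) + α * ((1 - α) * β * Fbp) := by
    ring
  have e2 : (α * (1 - α) * (1 - β)) * (Faq + Fbq) = (1 - α) * (α * (1 - β) * Faq) +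
      α * ((1 - α) * (1 - β) * Fbq) := by ring
  have e3 : α * (β * Fap + (1 - β) * Faq) + (1 - α) * (β * Fbp + (1 - β) * Fbq) =
      α * β * Fap + α * (1 - β) * Faq + (1 - α) * β * Fbp + (1 - α) * (1 - β) * Fbq := by ring
  rw [e, e3]
  linarith

/-- The final estimate for two points hanging off a common piece. -/
theorem cross_real {K κ A₁ A₂ α β Fab Fpq Fap Faq Fbp Fbq Dxy Dxa Dxb Dpy Dqy Dap Daq Dbp Dbq : ℝ}
    (hκ : 0 ≤ κ) (hK0 : 0 ≤ K) (hA₁ : 0 ≤ A₁) (hA₂ : 0 ≤ A₂)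
    (hα0 : 0 ≤ α) (hα1 : α ≤ 1) (hβ0 : 0 ≤ β) (hβ1 : β ≤ 1)
    (fap : 0 ≤ Fap) (faq : 0 ≤ Faq) (fbp : 0 ≤ Fbp) (fbq : 0 ≤ Fbq)
    (t1 : Fab ≤ Fap + Fbp) (t2 : Fab ≤ Faq + Fbq) (t3 : Fpq ≤ Fap + Faq) (t4 : Fpq ≤ Fbp + Fbq)
    (dxa : Dxa ≤ K * (A₁ + (1 - α) * Fab)) (dxb : Dxb ≤ K * (A₁ + α * Fab))
    (dpy : Dpy ≤ K * (A₂ + (1 - β) * Fpq)) (dqy : Dqy ≤ K * (A₂ + β * Fpq))
    (dap : Dap ≤ κ * Fap) (daq : Daq ≤ κ * Faq) (dbp : Dbp ≤ κ * Fbp) (dbq : Dbq ≤ κ * Fbq)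
    (r1 : Dxy ≤ Dxa + Dap + Dpy) (r2 : Dxy ≤ Dxa + Daq + Dqy)
    (r3 : Dxy ≤ Dxb + Dbp + Dpy) (r4 : Dxy ≤ Dxb + Dbq + Dqy) :
    Dxy ≤ (4 * K + κ) * (A₁ + A₂ + (α * (β * Fap + (1 - β) * Faq) +
      (1 - α) * (β * Fbp + (1 - β) * Fbq))) := by
  have hα' : 0 ≤ 1 - α := by linarith
  have hβ' : 0 ≤ 1 - β := by linarith
  have w1 : 0 ≤ α * β := mul_nonneg hα0 hβ0
  have w2 : 0 ≤ α * (1 - β) := mul_nonneg hα0 hβ'
  have w3 : 0 ≤ (1 - α) * β := mul_nonneg hα' hβ0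
  have w4 : 0 ≤ (1 - α) * (1 - β) := mul_nonneg hα' hβ'
  have k1 := conv_aux hα0 hα1 hβ0 hβ1 fap faq fbp fbq t1 t2
  have k2 := conv_aux hβ0 hβ1 hα0 hα1 fap fbp faq fbq t3 t4
  have e2 : β * (α * Fap + (1 - α) * Fbp) + (1 - β) * (α * Faq + (1 - α) * Fbq) =
      α * (β * Fap + (1 - β) * Faq) + (1 - α) * (β * Fbp + (1 - β) * Fbq) := by ring
  rw [e2] at k2
  have hM' : α * (β * Fap + (1 - β) * Faq) + (1 - α) * (β * Fbp + (1 - β) * Fbq) =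
    α * β * Fap + α * (1 - β) * Faq + (1 - α) * β * Fbp + (1 - α) * (1 - β) * Fbq := by ring
  -- averaging
  have a1 := mul_le_mul_of_nonneg_left r1 w1
  have a2 := mul_le_mul_of_nonneg_left r2 w2
  have a3 := mul_le_mul_of_nonneg_left r3 w3
  have a4 := mul_le_mul_of_nonneg_left r4 w4
  have s1 : Dxy ≤ (α * Dxa + (1 - α) * Dxb) + (β * Dpy + (1 - β) * Dqy) +
      (α * β * Dap + α * (1 - β) * Daq + (1 - α) * β * Dbp + (1 - α) * (1 - β) * Dbq) := by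
    have e : Dxy = α * β * Dxy + α * (1 - β) * Dxy + (1 - α) * β * Dxy +
      (1 - α) * (1 - β) * Dxy := by ring
    rw [e]
    refine (add_le_add (add_le_add (add_le_add a1 a2) a3) a4).trans (le_of_eq ?_)
    ring
  have b1 := mul_le_mul_of_nonneg_left dxa hα0
  have b2 := mul_le_mul_of_nonneg_left dxb hα'
  have b3 := mul_le_mul_of_nonneg_left dpy hβ0
  have b4 := mul_le_mul_of_nonneg_left dqy hβ'
  have c1 := mul_le_mul_of_nonneg_left dap w1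
  have c2 := mul_le_mul_of_nonneg_left daq w2
  have c3 := mul_le_mul_of_nonneg_left dbp w3
  have c4 := mul_le_mul_of_nonneg_left dbq w4
  have s2 : α * Dxa + (1 - α) * Dxb ≤ K * (A₁ + 2 * (α * (1 - α) * Fab)) :=
    (add_le_add b1 b2).trans (le_of_eq (by ring))
  have s3 : β * Dpy + (1 - β) * Dqy ≤ K * (A₂ + 2 * (β * (1 - β) * Fpq)) :=
    (add_le_add b3 b4).trans (le_of_eq (by ring))
  have s4 : α * β * Dap + α * (1 - β) * Daq + (1 - α) * β * Dbp + (1 - α) * (1 - β) * Dbq ≤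
      κ * (α * (β * Fap + (1 - β) * Faq) + (1 - α) * (β * Fbp + (1 - β) * Fbq)) :=
    (add_le_add (add_le_add (add_le_add c1 c2) c3) c4).trans (le_of_eq (by ring))
  generalize α * (β * Fap + (1 - β) * Faq) + (1 - α) * (β * Fbp + (1 - β) * Fbq) = M at *
  have s5 : K * (A₁ + 2 * (α * (1 - α) * Fab)) ≤ K * (A₁ + 2 * M) :=
    mul_le_mul_of_nonneg_left (by linarith) hK0
  have s6 : K * (A₂ + 2 * (β * (1 - β) * Fpq)) ≤ K * (A₂ + 2 * M) :=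
    mul_le_mul_of_nonneg_left (by linarith) hK0
  have s7 : Dxy ≤ K * (A₁ + 2 * M) + K * (A₂ + 2 * M) + κ * M := by linarith
  have s8 : 0 ≤ K * A₁ := mul_nonneg hK0 hA₁
  have s9 : 0 ≤ K * A₂ := mul_nonneg hK0 hA₂
  have s10 : 0 ≤ κ * A₁ := mul_nonneg hκ hA₁
  have s11 : 0 ≤ κ * A₂ := mul_nonneg hκ hA₂
  have e : (4 * K + κ) * (A₁ + A₂ + M) = K * (A₁ + 2 * M) + K * (A₂ + 2 * M) + κ * M +
      (3 * (K * A₁) + 3 * (K * A₂) + κ * A₁ + κ * A₂) := by ring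
  rw [e]
  linarith

section
variable {V : Type*}

/-- Rooted gluing structures: `Rooted H D P Y X` says that the part `Y` of the vertex set is
obtained from pieces by gluing along pairs, the piece `X` being the root. -/
inductive Rooted (H : SimpleGraph V) (D : V → V → ℝ) (P : Set V → Prop) : Set V → Set V → Prop
  | base (X : Set V) (hX : P X) : Rooted H D P X X
  | step (Y₁ Y₂ X X₂ : Set V) (a b : V) (h₁ : Rooted H D P Y₁ X) (h₂ : Rooted H D P Y₂ X₂)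
      (haX : a ∈ X) (hbX : b ∈ X) (haX₂ : a ∈ X₂) (hbX₂ : b ∈ X₂)
      (hab : ∀ z, z ∈ Y₁ → z ∈ Y₂ → z = a ∨ z = b)
      (hsep : ∀ x ∈ Y₁, ∀ y ∈ Y₂, min (D x a + D a y) (D x b + D b y) ≤ D x y)
      (hadj : ∀ x ∈ Y₁, ∀ y ∈ Y₂, x ∉ Y₂ → y ∉ Y₁ → ¬ H.Adj x y) :
      Rooted H D P (Y₁ ∪ Y₂) X

theorem Rooted.subset {H : SimpleGraph V} {D : V → V → ℝ} {P : Set V → Prop} {Y X : Set V}
    (h : Rooted H D P Y X) : X ⊆ Y := by
  induction h with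
  | base X hX => exact le_refl _
  | step Y₁ Y₂ X X₂ a b h₁ h₂ _ _ _ _ _ _ _ ih₁ ih₂ =>
    exact ih₁.trans Set.subset_union_left

theorem Rooted.piece {H : SimpleGraph V} {D : V → V → ℝ} {P : Set V → Prop} {Y X : Set V}
    (h : Rooted H D P Y X) : P X := by
  induction h with
  | base X hX => exact hX
  | step Y₁ Y₂ X X₂ a b h₁ h₂ _ _ _ _ _ _ _ ih₁ ih₂ => exact ih₁

/-- What is required of a piece. -/
def IsPiece (D : V → V → ℝ) (κ : ℝ) (X : Set V) : Prop :=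
  LC D X κ ∧ ∀ u ∈ X, ∀ v ∈ X, LCq D X u v κ

/-- The conclusion of the main induction. -/
def Good (D : V → V → ℝ) (κ K : ℝ) (Y X : Set V) (FX F : V → V → ℝ) : Prop :=
  IsCut F ∧ (∀ x ∈ X, ∀ y ∈ X, F x y = FX x y) ∧
  (∀ x ∈ Y, ∀ y ∈ Y, F x y ≤ D x y) ∧
  (∀ x ∈ Y, ∃ A α : ℝ, ∃ p ∈ X, ∃ q ∈ X, 0 ≤ A ∧ 0 ≤ α ∧ α ≤ 1 ∧
    (∀ z ∈ X, F x z = A + α * F p z + (1 - α) * F q z) ∧
    D x p ≤ K * (A + (1 - α) * F p q) ∧ D x q ≤ K * (A + α * F p q)) ∧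
  (∀ x ∈ Y, ∀ y ∈ Y, D x y ≤ (4 * K + κ) * F x y)

end

end Vale.Agent.P235
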