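import Vale.Agent.Lib.P235.Paths
import Vale.Agent.Lib.P235.Localize

namespace Vale.Agent.P235

open SimpleGraph Finset

section
variable {V : Type} {G : SimpleGraph V} {ℓ : Sym2 V → ℝ} {m : ℕ} {B : Fin m → Finset V}

theorem walk_meets (hE : ∀ x y, G.Adj x y → ∃ i, x ∈ B i ∧ y ∈ B i)
    (hI : ∀ x, ∀ i j l, i ≤ j → j ≤ l → x ∈ B i → x ∈ B l → x ∈ B j) {a b : V} (p : G.Walk a b) :
    ∀ i t j, a ∈ B i → b ∈ B j → i ≤ t → t ≤ j → ∃ z ∈ p.support, z ∈ B t := by
  induction p with
  | nil =>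
    intro i t j ha hb hit htj
    exact ⟨_, Walk.start_mem_support _, hI _ i t j hit htj ha hb⟩
  | @cons u v w h p ih =>
    intro i t j ha hb hit htj
    obtain ⟨l, hl1, hl2⟩ := hE u v h
    rcases le_total l t with hlt | hlt
    · obtain ⟨z, hz1, hz2⟩ := ih l t j hl2 hb hlt htj
      exact ⟨z, by rw [Walk.support_cons]; exact List.mem_cons_of_mem _ hz1, hz2⟩
    · exact ⟨u, Walk.start_mem_support _, hI _ i t l hit hlt ha hl1⟩

/-- A shortest path meeting every bag met by the component of `x`. -/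
theorem spine [Fintype V] (hℓ : ∀ e, 0 ≤ ℓ e) (hE : ∀ x y, G.Adj x y → ∃ i, x ∈ B i ∧ y ∈ B i)
    (hI : ∀ x, ∀ i j l, i ≤ j → j ≤ l → x ∈ B i → x ∈ B l → x ∈ B j) (x : V) :
    ∃ (s : V) (A : Set V), G.Reachable x s ∧ A.Nonempty ∧ (∀ z ∈ A, G.Reachable x z) ∧
      (∀ z ∈ A, ∀ z' ∈ A, pathDist G ℓ z z' ≤ |pathDist G ℓ s z - pathDist G ℓ s z'|) ∧
      (∀ i, ∀ y ∈ B i, G.Reachable x y → ∃ z ∈ A, z ∈ B i) := by
  classical
  set S : Finset (Fin m) := Finset.univ.filter (fun i => ∃ y ∈ B i, G.Reachable x y) with hS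
  rcases S.eq_empty_or_nonempty with hSe | hSn
  · refine ⟨x, {x}, Reachable.refl x, ⟨x, rfl⟩, ?_, ?_, ?_⟩
    · rintro z rfl; exact Reachable.refl _
    · rintro z rfl z' rfl
      rw [pathDist_self hℓ]; exact abs_nonneg _
    · intro i y hy hxy
      exfalso
      have : i ∈ S := by
        rw [hS, Finset.mem_filter]; exact ⟨Finset.mem_univ _, y, hy, hxy⟩
      rw [hSe] at this
      exact absurd this (Finset.notMem_empty _)
  · have hmem : ∀ i, i ∈ S → ∃ y ∈ B i, G.Reachable x y := fun i hi => (Finset.mem_filter.mp hi).2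
    obtain ⟨s, hs, hxs⟩ := hmem _ (S.min'_mem hSn)
    obtain ⟨e, he, hxe⟩ := hmem _ (S.max'_mem hSn)
    obtain ⟨p, hp⟩ := exists_walk_eq hℓ (hxs.symm.trans hxe)
    refine ⟨s, {z | z ∈ p.support}, hxs, ⟨s, Walk.start_mem_support _⟩, ?_, ?_, ?_⟩
    · intro z hz
      exact hxs.trans ⟨p.takeUntil z hz⟩
    · intro z hz z' hz'
      exact geodesic hℓ p hp hz hz'
    · intro i y hy hxy
      have hi : i ∈ S := by
        rw [hS, Finset.mem_filter]; exact ⟨Finset.mem_univ _, y, hy, hxy⟩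
      have h2 := S.min'_le i hi
      have h3 := S.le_max' i hi
      obtain ⟨z, hz1, hz2⟩ := walk_meets hE hI p _ i _ hs he h2 h3
      exact ⟨z, hz1, hz2⟩

/-- Deleting the edges at a set. -/
def offGraph (G : SimpleGraph V) (A : Set V) : SimpleGraph V where
  Adj x y := G.Adj x y ∧ x ∉ A ∧ y ∉ A
  symm := ⟨fun _ _ h => ⟨h.1.symm, h.2.2, h.2.1⟩⟩
  loopless := ⟨fun x h => G.loopless.irrefl x h.1⟩

theorem offGraph_le (A : Set V) : offGraph G A ≤ G := fun _ _ h => h.1

theorem off_walk {A : Set V} {x y : V} (p : G.Walk x y) (h : ∀ z ∈ p.support, z ∉ A) :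
    ∃ q : (offGraph G A).Walk x y, walkLen ℓ q = walkLen ℓ p := by
  induction p with
  | nil => exact ⟨Walk.nil, by simp [walkLen]⟩
  | @cons u v w huv p ih =>
    obtain ⟨q, hq⟩ := ih (fun z hz => h z (by rw [Walk.support_cons]; exact List.mem_cons_of_mem _ hz))
    have hu : u ∉ A := h u (Walk.start_mem_support _)
    have hv : v ∉ A := h v (by
      rw [Walk.support_cons]; exact List.mem_cons_of_mem _ (Walk.start_mem_support _))
    have huv' : (offGraph G A).Adj u v := ⟨huv, hu, hv⟩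
    refine ⟨Walk.cons huv' q, ?_⟩
    unfold walkLen at hq ⊢
    rw [Walk.edges_cons, Walk.edges_cons, List.map_cons, List.map_cons, List.sum_cons,
      List.sum_cons, hq]

theorem peel_alt [Fintype V] (hℓ : ∀ e, 0 ≤ ℓ e) {A : Set V} {r : V → ℝ}
    (hrA : ∀ x, ∀ z ∈ A, G.Reachable x z → r x ≤ pathDist G ℓ x z) {x y : V}
    (hxy : G.Reachable x y) :
    ((offGraph G A).Reachable x y ∧ pathDist (offGraph G A) ℓ x y ≤ pathDist G ℓ x y) ∨
      r x + r y ≤ pathDist G ℓ x y := by
  classical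
  obtain ⟨p, hp⟩ := exists_walk_eq hℓ hxy
  by_cases h : ∀ z ∈ p.support, z ∉ A
  · left
    obtain ⟨q, hq⟩ := off_walk (ℓ := ℓ) p h
    exact ⟨⟨q⟩, by rw [← hp, ← hq]; exact pathDist_le hℓ q⟩
  · right
    push Not at h
    obtain ⟨z, hz, hzA⟩ := h
    have h1 := walk_split hℓ p hz
    have h2 := hrA x z hzA ⟨p.takeUntil z hz⟩
    have h3 := hrA y z hzA (Reachable.symm ⟨p.dropUntil z hz⟩)
    rw [pathDist_symm hℓ y z] at h3
    linarith

/-- The peeling step. -/
theorem peel_step [Fintype V] (hℓ : ∀ e, 0 ≤ ℓ e)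
    (hE : ∀ x y, G.Adj x y → ∃ i, x ∈ B i ∧ y ∈ B i)
    (hI : ∀ x, ∀ i j l, i ≤ j → j ≤ l → x ∈ B i → x ∈ B l → x ∈ B j) :
    ∃ (A : Set V) (S : V → V) (N : V → V),
      (∀ x, G.Reachable x (S x)) ∧ (∀ x y, G.Reachable x y → S x = S y) ∧
      (∀ x, G.Reachable x (N x)) ∧ (∀ x, N x ∈ A) ∧
      (∀ x, ∀ z ∈ A, G.Reachable x z → pathDist G ℓ x (N x) ≤ pathDist G ℓ x z) ∧
      (∀ z ∈ A, ∀ z' ∈ A, G.Reachable z z' → pathDist G ℓ z z' ≤
        |pathDist G ℓ (S z) z - pathDist G ℓ (S z') z'|) ∧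
      (∀ i, (B i).Nonempty → ∃ z ∈ A, z ∈ B i) := by
  classical
  choose s A hs hA1 hA2 hA3 hA4 using fun x => spine (ℓ := ℓ) hℓ hE hI x
  set rep : V → V := fun x => (G.connectedComponentMk x).out with hrep
  have rep1 : ∀ x, G.Reachable x (rep x) := by
    intro x
    have : G.connectedComponentMk (rep x) = G.connectedComponentMk x :=
      Quot.out_eq (G.connectedComponentMk x)
    exact (ConnectedComponent.exact this).symm
  have rep2 : ∀ x y, G.Reachable x y → rep x = rep y := by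
    intro x y h
    have : G.connectedComponentMk x = G.connectedComponentMk y := ConnectedComponent.sound h
    simp only [hrep, this]
  have near : ∀ x, ∃ n ∈ A (rep x), ∀ z ∈ A (rep x), pathDist G ℓ x n ≤ pathDist G ℓ x z := by
    intro x
    exact Set.exists_min_image (A (rep x)) (fun z => pathDist G ℓ x z) (Set.toFinite _)
      (hA1 (rep x))
  choose N hN1 hN2 using near
  have memA : ∀ x z, z ∈ A (rep x) → G.Reachable x z := fun x z hz =>
    (rep1 x).trans (hA2 (rep x) z hz)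
  refine ⟨{z | z ∈ A (rep z)}, fun x => s (rep x), N, ?_, ?_, ?_, ?_, ?_, ?_, ?_⟩
  · intro x; exact (rep1 x).trans (hs (rep x))
  · intro x y h; simp only [rep2 x y h]
  · intro x; exact memA x _ (hN1 x)
  · intro x
    show N x ∈ A (rep (N x))
    rw [← rep2 x (N x) (memA x _ (hN1 x))]
    exact hN1 x
  · intro x z hz hxz
    apply hN2
    rw [rep2 x z hxz]; exact hz
  · intro z hz z' hz' hzz'
    have e := rep2 z z' hzz'
    have hz2 : z ∈ A (rep z) := hz
    have hz2' : z' ∈ A (rep z') := hz'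
    rw [← e] at hz2'
    simp only [← e]
    exact hA3 (rep z) z hz2 z' hz2'
  · rintro i ⟨y, hy⟩
    obtain ⟨z, hz1, hz2⟩ := hA4 (rep y) i y hy (rep1 y).symm
    refine ⟨z, ?_, hz2⟩
    show z ∈ A (rep z)
    rw [← rep2 y z (memA y z hz1)]
    exact hz1

theorem combine_real {D rx ry M₁ Δ κ : ℝ} (hκ : 1 ≤ κ)
    (h1 : min D (rx + ry) ≤ 300 * κ * M₁) (hM₁ : 0 ≤ M₁) (hΔ0 : 0 ≤ Δ)
    (hrx : 0 ≤ rx) (hry : 0 ≤ ry)
    (h2 : D - 2 * (rx + ry) ≤ Δ) (hD : 0 ≤ D) :
    D ≤ 2400 * κ * (1 / 2 * M₁ + 1 / 2 * Δ) := by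
  have n1 : 0 ≤ κ * M₁ := by positivity
  have n2 : Δ ≤ κ * Δ := by nlinarith
  rcases le_or_gt D (4 * (rx + ry)) with h | h
  · have : D / 4 ≤ min D (rx + ry) := le_min (by linarith) (by linarith)
    nlinarith
  · have : D ≤ 2 * Δ := by linarith
    nlinarith

theorem pw_main [Fintype V] (hℓ : ∀ e, 0 ≤ ℓ e) (k : ℕ) : ∀ (G : SimpleGraph V) (B : Fin m → Finset V),
    (∀ x y, G.Adj x y → ∃ i, x ∈ B i ∧ y ∈ B i) →
    (∀ x, ∀ i j l, i ≤ j → j ≤ l → x ∈ B i → x ∈ B l → x ∈ B j) →
    (∀ i, (B i).card ≤ k) →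
    ∃ M, RF G.Reachable (pathDist G ℓ) ∅ M ∧
      ∀ x y, G.Reachable x y → pathDist G ℓ x y ≤ 2400 ^ k * M x y := by
  classical
  induction k with
  | zero =>
    intro G B hE hI hc
    refine ⟨_, RF.single (fun _ => 0) ?_ (by simp), ?_⟩
    · intro x y h
      simp only [sub_zero, abs_zero]
      exact pathDist_nonneg hℓ x y
    · intro x y h
      have : x = y := by
        obtain ⟨p⟩ := h
        cases p with
        | nil => rfl
        | cons h' _ =>
          exfalso
          obtain ⟨i, hi, _⟩ := hE _ _ h'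
          have := hc i
          rw [Nat.le_zero, Finset.card_eq_zero] at this
          rw [this] at hi
          exact absurd hi (Finset.notMem_empty _)
      rw [this, pathDist_self hℓ]
      simp
  | succ k ih =>
    intro G B hE hI hc
    obtain ⟨A, S, N, hS1, hS2, hN1, hNA, hNmin, hgeo, hbag⟩ := peel_step (ℓ := ℓ) hℓ hE hI
    set r : V → ℝ := fun x => pathDist G ℓ x (N x) with hr
    have hr0 : ∀ x, 0 ≤ r x := fun x => pathDist_nonneg hℓ _ _
    have hrlip : ∀ x y, G.Reachable x y → |r x - r y| ≤ pathDist G ℓ x y := by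
      have one : ∀ x y, G.Reachable x y → r x - r y ≤ pathDist G ℓ x y := by
        intro x y h
        have h1 := hNmin x (N y) (hNA y) (h.trans (hN1 y))
        have h2 := pathDist_tri hℓ h (hN1 y)
        simp only [hr]; linarith
      intro x y h
      rw [abs_sub_le_iff]
      exact ⟨one x y h, by rw [pathDist_symm hℓ x y]; exact one y x h.symm⟩
    set G' := offGraph G A with hG'
    obtain ⟨M₀, ⟨ι, hι, w, f, hw, hw1, hf, _, hM₀⟩, hlow⟩ := ih G' (fun i => (B i).filter (fun z => z ∉ A))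
      (by
        rintro x y ⟨hxy, hx, hy⟩
        obtain ⟨i, h1, h2⟩ := hE x y hxy
        exact ⟨i, Finset.mem_filter.mpr ⟨h1, hx⟩, Finset.mem_filter.mpr ⟨h2, hy⟩⟩)
      (by
        intro x i j l hij hjl h1 h2
        rw [Finset.mem_filter] at h1 h2 ⊢
        exact ⟨hI x i j l hij hjl h1.1 h2.1, h1.2⟩)
      (by
        intro i
        rcases (B i).eq_empty_or_nonempty with he | hn
        · simp [he]
        · obtain ⟨z, hzA, hzB⟩ := hbag i hn
          have hlt : ((B i).filter (fun z => z ∉ A)).card < (B i).card := by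
            apply Finset.card_lt_card
            rw [Finset.ssubset_iff_of_subset (Finset.filter_subset _ _)]
            exact ⟨z, hzB, by simp [hzA]⟩
          have := hc i
          omega)
    have halt : ∀ x y, G.Reachable x y → (G'.Reachable x y ∧ pathDist G' ℓ x y ≤ pathDist G ℓ x y) ∨
        r x + r y ≤ pathDist G ℓ x y := fun x y h => peel_alt hℓ hNmin h
    have hκ : (1:ℝ) ≤ 2400 ^ k := one_le_pow₀ (by norm_num)
    obtain ⟨M₁, hM₁, hlow₁⟩ := localize (R := G.Reachable) (D := pathDist G ℓ)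
      (ρ := pathDist G' ℓ) (lab := fun x => G'.connectedComponentMk x) (r := r) (w := w) (fam := f)
      (κ := 2400 ^ k) hκ hw hw1 hr0 hrlip
      (fun i x y _ h => hf i x y (ConnectedComponent.exact h))
      (fun x y _ h => by rw [← hM₀]; exact hlow x y (ConnectedComponent.exact h))
      (fun x y _ h => pathDist_mono hℓ (offGraph_le A) (ConnectedComponent.exact h))
      (fun x y h _ => (halt x y h).imp (fun h => h.2) id)
      (fun x y h hne => by
        rcases halt x y h with h' | h'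
        · exact absurd (ConnectedComponent.sound h'.1) hne
        · exact h')
    set β : V → ℝ := fun x => pathDist G ℓ (S x) x with hβ
    have hβlip : ∀ x y, G.Reachable x y → |β x - β y| ≤ pathDist G ℓ x y := by
      intro x y h
      have e := hS2 x y h
      have r1 : G.Reachable (S x) x := (hS1 x).symm
      have t1 := pathDist_tri hℓ r1 h
      have t2 := pathDist_tri hℓ (r1.trans h) h.symm
      rw [pathDist_symm hℓ y x] at t2
      simp only [hβ, ← e]
      rw [abs_sub_le_iff]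
      constructor <;> linarith
    have hmix := RF.convex (R := G.Reachable) (D := pathDist G ℓ) (Z := ∅) (κ := Fin 2)
      (fun _ => 1/2) (fun _ => by norm_num) (by simp)
      (![M₁, fun x y => |β x - β y|]) (by
        intro j
        fin_cases j
        · obtain ⟨ι', hι', w', f', h1, h2, h3, h4, h5⟩ := hM₁
          exact ⟨ι', hι', w', f', h1, h2, h3, by simp, h5⟩
        · exact RF.single β hβlip (by simp))
    refine ⟨_, hmix, ?_⟩
    intro x y h
    rw [Fin.sum_univ_two]
    show pathDist G ℓ x y ≤ 2400 ^ (k + 1) * (1 / 2 * M₁ x y + 1 / 2 * |β x - β y|)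
    rw [pow_succ, mul_comm ((2400:ℝ) ^ k) 2400]
    have hM₁0 : 0 ≤ M₁ x y := by
      obtain ⟨ι', hι', w', f', h1, h2, h3, h4, h5⟩ := hM₁
      rw [h5]
      exact Finset.sum_nonneg (fun i _ => mul_nonneg (h1 i) (abs_nonneg _))
    refine combine_real hκ (hlow₁ x y h) hM₁0 (abs_nonneg _) (hr0 x) (hr0 y) ?_
      (pathDist_nonneg hℓ x y)
    -- the line part
    have rxn := hN1 x
    have ryn := hN1 y
    have rnn : G.Reachable (N x) (N y) := rxn.symm.trans (h.trans ryn)
    have g1 := hgeo (N x) (hNA x) (N y) (hNA y) rnn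
    have b1 := hβlip x (N x) rxn
    have b2 := hβlip y (N y) ryn
    have t1 := pathDist_tri hℓ rxn (rnn.trans ryn.symm)
    have t2 := pathDist_tri hℓ rnn ryn.symm
    rw [pathDist_symm hℓ (N y) y] at t2
    have g1' : pathDist G ℓ (N x) (N y) ≤ |β (N x) - β (N y)| := g1
    have a1 : |β (N x) - β (N y)| ≤ |β x - β (N x)| + |β x - β y| + |β y - β (N y)| := by
      rw [abs_sub_comm (β x) (β (N x))]
      have := abs_sub_le (β (N x)) (β x) (β (N y))
      have := abs_sub_le (β x) (β y) (β (N y))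
      linarith
    have e1 : r x = pathDist G ℓ x (N x) := rfl
    have e2 : r y = pathDist G ℓ y (N y) := rfl
    linarith

end

end Vale.Agent.P235
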