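import Vale.Agent.Lib.P235.Defs

namespace Vale.Agent.P235

open SimpleGraph

section
variable {V : Type}

variable {G : SimpleGraph V} {ℓ : Sym2 V → ℝ}

theorem walkLen_nonneg (hℓ : ∀ e, 0 ≤ ℓ e) {x y : V} (p : G.Walk x y) : 0 ≤ walkLen ℓ p := by
  unfold walkLen
  apply List.sum_nonneg
  intro a ha
  rw [List.mem_map] at ha
  obtain ⟨e, _, rfl⟩ := ha
  exact hℓ e

theorem walkLen_append {x y z : V} (p : G.Walk x y) (q : G.Walk y z) :
    walkLen ℓ (p.append q) = walkLen ℓ p + walkLen ℓ q := by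
  unfold walkLen
  rw [Walk.edges_append, List.map_append, List.sum_append]

theorem walkLen_reverse {x y : V} (p : G.Walk x y) : walkLen ℓ p.reverse = walkLen ℓ p := by
  unfold walkLen
  rw [Walk.edges_reverse, List.map_reverse, List.sum_reverse]

theorem bddBelow_walkLen (hℓ : ∀ e, 0 ≤ ℓ e) (x y : V) :
    BddBelow (Set.range (fun p : G.Walk x y => walkLen ℓ p)) :=
  ⟨0, by rintro _ ⟨p, rfl⟩; exact walkLen_nonneg hℓ p⟩

theorem pathDist_le (hℓ : ∀ e, 0 ≤ ℓ e) {x y : V} (p : G.Walk x y) :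
    pathDist G ℓ x y ≤ walkLen ℓ p :=
  ciInf_le (bddBelow_walkLen hℓ x y) p

theorem pathDist_nonneg (hℓ : ∀ e, 0 ≤ ℓ e) (x y : V) : 0 ≤ pathDist G ℓ x y :=
  Real.iInf_nonneg (fun p => walkLen_nonneg hℓ p)

theorem pathDist_self (hℓ : ∀ e, 0 ≤ ℓ e) (x : V) : pathDist G ℓ x x = 0 := by
  apply le_antisymm _ (pathDist_nonneg hℓ x x)
  have := pathDist_le (G := G) hℓ (Walk.nil : G.Walk x x)
  simpa [walkLen] using this

theorem pathDist_symm (hℓ : ∀ e, 0 ≤ ℓ e) (x y : V) : pathDist G ℓ x y = pathDist G ℓ y x := by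
  have key : ∀ x y, pathDist G ℓ x y ≤ pathDist G ℓ y x := by
    intro x y
    by_cases h : G.Reachable y x
    · have : Nonempty (G.Walk y x) := h
      apply le_ciInf
      intro p
      rw [← walkLen_reverse]
      exact pathDist_le hℓ _
    · have h' : ¬ G.Reachable x y := fun h' => h h'.symm
      have : IsEmpty (G.Walk x y) := by
        rw [← not_nonempty_iff]; exact h'
      have : IsEmpty (G.Walk y x) := by
        rw [← not_nonempty_iff]; exact h
      unfold pathDist
      rw [Real.iInf_of_isEmpty, Real.iInf_of_isEmpty]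
  exact le_antisymm (key x y) (key y x)

theorem walkLen_bypass [DecidableEq V] (hℓ : ∀ e, 0 ≤ ℓ e) {x y : V} (p : G.Walk x y) :
    walkLen ℓ p.bypass ≤ walkLen ℓ p := by
  have h1 : p.bypass.edges.Nodup := (p.bypass_isPath).isTrail.edges_nodup
  have h2 := h1.subperm (p.edges_bypass_subset_edges)
  obtain ⟨l, hl1, hl2⟩ := h2
  unfold walkLen
  have e : (p.bypass.edges.map ℓ).sum = (l.map ℓ).sum := (hl1.map ℓ).sum_eq.symm
  rw [e]
  apply List.Sublist.sum_le_sum (hl2.map ℓ)
  intro a ha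
  rw [List.mem_map] at ha
  obtain ⟨e, _, rfl⟩ := ha
  exact hℓ e

theorem exists_walk_eq [Fintype V] (hℓ : ∀ e, 0 ≤ ℓ e) {x y : V} (h : G.Reachable x y) :
    ∃ p : G.Walk x y, walkLen ℓ p = pathDist G ℓ x y := by
  classical
  have : Nonempty (G.Path x y) := by
    obtain ⟨p⟩ := h
    exact ⟨⟨p.bypass, p.bypass_isPath⟩⟩
  obtain ⟨P, hP⟩ := Finite.exists_min (fun p : G.Path x y => walkLen ℓ (p : G.Walk x y))
  refine ⟨P, le_antisymm ?_ (pathDist_le hℓ _)⟩
  have : Nonempty (G.Walk x y) := h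
  apply le_ciInf
  intro p
  exact (hP ⟨p.bypass, p.bypass_isPath⟩).trans (walkLen_bypass hℓ p)

theorem pathDist_tri [Fintype V] (hℓ : ∀ e, 0 ≤ ℓ e) {x y z : V} (h1 : G.Reachable x y)
    (h2 : G.Reachable y z) : pathDist G ℓ x z ≤ pathDist G ℓ x y + pathDist G ℓ y z := by
  obtain ⟨p, hp⟩ := exists_walk_eq hℓ h1
  obtain ⟨q, hq⟩ := exists_walk_eq hℓ h2
  rw [← hp, ← hq, ← walkLen_append]
  exact pathDist_le hℓ _

theorem walk_split [DecidableEq V] (hℓ : ∀ e, 0 ≤ ℓ e) {x y z : V} (p : G.Walk x y)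
    (hz : z ∈ p.support) : pathDist G ℓ x z + pathDist G ℓ z y ≤ walkLen ℓ p := by
  rw [← p.take_spec hz, walkLen_append]
  exact add_le_add (pathDist_le hℓ _) (pathDist_le hℓ _)

/-- Points on a shortest walk from `s` are isometrically parametrized by the distance to `s`. -/
theorem geodesic [Fintype V] (hℓ : ∀ e, 0 ≤ ℓ e) {s e : V} (p : G.Walk s e)
    (hp : walkLen ℓ p = pathDist G ℓ s e) {z z' : V} (hz : z ∈ p.support) (hz' : z' ∈ p.support) :
    pathDist G ℓ z z' ≤ |pathDist G ℓ s z - pathDist G ℓ s z'| := by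
  classical
  have key : ∀ z z' : V, (hz : z ∈ p.support) → z' ∈ (p.dropUntil z hz).support →
      pathDist G ℓ s z + pathDist G ℓ z z' ≤ pathDist G ℓ s z' := by
    intro z z' hz hz'
    have h1 : walkLen ℓ p = walkLen ℓ (p.takeUntil z hz) + walkLen ℓ (p.dropUntil z hz) := by
      rw [← walkLen_append, p.take_spec hz]
    have h2 := walk_split hℓ (p.dropUntil z hz) hz'
    have h3 := pathDist_le hℓ (p.takeUntil z hz)
    have r1 : G.Reachable s z' := ⟨(p.takeUntil z hz).append ((p.dropUntil z hz).takeUntil z' hz')⟩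
    have r2 : G.Reachable z' e := ⟨(p.dropUntil z hz).dropUntil z' hz'⟩
    have h4 := pathDist_tri hℓ r1 r2
    linarith
  have hcase : z' ∈ (p.takeUntil z hz).support ∨ z' ∈ (p.dropUntil z hz).support := by
    rw [← Walk.mem_support_append_iff, p.take_spec hz]; exact hz'
  rcases hcase with h | h
  · -- `z'` before `z`
    have hzd : z ∈ (p.dropUntil z' hz').support := by
      by_contra hcon
      have hc2 : z ∈ (p.takeUntil z' hz').support ∨ z ∈ (p.dropUntil z' hz').support := by
        rw [← Walk.mem_support_append_iff, p.take_spec hz']; exact hz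
      have hz2 : z ∈ (p.takeUntil z' hz').support := hc2.resolve_right hcon
      -- lengths
      by_cases hne : z = z'
      · subst hne
        exact hcon (Walk.start_mem_support _)
      · have a1 := Walk.length_takeUntil_lt_length h (Ne.symm hne)
        have a2 := Walk.length_takeUntil_lt_length hz2 hne
        rw [Walk.takeUntil_takeUntil] at a1 a2
        omega
    have := key z' z hz' hzd
    rw [pathDist_symm hℓ z' z] at this
    have h5 := le_abs_self (pathDist G ℓ s z - pathDist G ℓ s z')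
    linarith
  · have := key z z' hz h
    have h5 := neg_abs_le (pathDist G ℓ s z - pathDist G ℓ s z')
    linarith

theorem pathDist_mono {G' : SimpleGraph V} (hℓ : ∀ e, 0 ≤ ℓ e) (h : G' ≤ G) {x y : V}
    (hr : G'.Reachable x y) : pathDist G ℓ x y ≤ pathDist G' ℓ x y := by
  have : Nonempty (G'.Walk x y) := hr
  apply le_ciInf
  intro p
  have : walkLen ℓ (p.mapLe h) = walkLen ℓ p := by
    unfold walkLen
    simp
  rw [← this]
  exact pathDist_le hℓ _

theorem pathDist_adj (hℓ : ∀ e, 0 ≤ ℓ e) {x y : V} (h : G.Adj x y) :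
    pathDist G ℓ x y ≤ ℓ s(x, y) := by
  have := pathDist_le hℓ (Walk.cons h Walk.nil)
  simpa [walkLen] using this

end

end Vale.Agent.P235
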