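import Vale.Agent.Lib.P235.Glue

namespace Vale.Agent.P235

open Finset

/-- pseudometrics as plain functions -/
structure IsPM {V : Type*} (D : V → V → ℝ) : Prop where
  nonneg : ∀ x y, 0 ≤ D x y
  self : ∀ x, D x x = 0
  symm : ∀ x y, D x y = D y x
  tri : ∀ x y z, D x z ≤ D x y + D y z

/-- `(X, D)` embeds with distortion `κ` via a random `1`-Lipschitz function. -/
def LC {V : Type*} (D : V → V → ℝ) (X : Set V) (κ : ℝ) : Prop :=
  ∃ (ι : Type) (_ : Fintype ι) (w : ι → ℝ) (f : ι → V → ℝ),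
    (∀ i, 0 ≤ w i) ∧ (∑ i, w i = 1) ∧
    (∀ i, ∀ x ∈ X, ∀ y ∈ X, |f i x - f i y| ≤ D x y) ∧
    (∀ x ∈ X, ∀ y ∈ X, D x y ≤ κ * ∑ i, w i * |f i x - f i y|)

/-- The same for the quotient of `(X, D)` in which `u` and `v` are identified. -/
def LCq {V : Type*} (D : V → V → ℝ) (X : Set V) (u v : V) (κ : ℝ) : Prop :=
  ∃ (ι : Type) (_ : Fintype ι) (w : ι → ℝ) (f : ι → V → ℝ),
    (∀ i, 0 ≤ w i) ∧ (∑ i, w i = 1) ∧
    (∀ i, ∀ x ∈ X, ∀ y ∈ X, |f i x - f i y| ≤ D x y) ∧
    (∀ i, f i u = f i v) ∧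
    (∀ x ∈ X, ∀ y ∈ X, min (D x y) (min (D u x) (D v x) + min (D u y) (D v y)) ≤
      κ * ∑ i, w i * |f i x - f i y|)

theorem abs_min_sub_min_le {a b c d e : ℝ} (h1 : |a - b| ≤ e) (h2 : |c - d| ≤ e) :
    |min a c - min b d| ≤ e := by
  rw [abs_le] at *
  constructor
  · rcases min_cases a c with ⟨h, h'⟩ | ⟨h, h'⟩ <;> rcases min_cases b d with ⟨g, g'⟩ | ⟨g, g'⟩ <;>
      linarith [h1.1, h1.2, h2.1, h2.2]
  · rcases min_cases a c with ⟨h, h'⟩ | ⟨h, h'⟩ <;> rcases min_cases b d with ⟨g, g'⟩ | ⟨g, g'⟩ <;>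
      linarith [h1.1, h1.2, h2.1, h2.2]

theorem IsPM.abs_sub_le {V : Type*} {D : V → V → ℝ} (hD : IsPM D) (u x y : V) :
    |D u x - D u y| ≤ D x y := by
  rw [abs_le]
  constructor
  · have := hD.tri u x y; linarith
  · have := hD.tri u y x; have := hD.symm x y; linarith

theorem gromov_aux {ha ra hb rb : ℝ} (h1 : 0 ≤ ha) (h2 : 0 ≤ ra) (h3 : 0 ≤ hb) (h4 : 0 ≤ rb) :
    min (ha + ra) (hb + rb) ≤ max |0 - ha| |0 - ra| + max |0 - hb| |0 - rb|
      - max |ha - hb| |ra - rb| := by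
  rw [zero_sub, zero_sub, zero_sub, zero_sub, abs_neg, abs_neg, abs_neg, abs_neg,
    abs_of_nonneg h1, abs_of_nonneg h2, abs_of_nonneg h3, abs_of_nonneg h4]
  rcases abs_cases (ha - hb) with ⟨e1, e1'⟩ | ⟨e1, e1'⟩ <;>
  rcases abs_cases (ra - rb) with ⟨e2, e2'⟩ | ⟨e2, e2'⟩ <;>
  rcases max_cases ha ra with ⟨m1, m1'⟩ | ⟨m1, m1'⟩ <;>
  rcases max_cases hb rb with ⟨m2, m2'⟩ | ⟨m2, m2'⟩ <;>
  rcases max_cases |ha - hb| |ra - rb| with ⟨m3, m3'⟩ | ⟨m3, m3'⟩ <;>
  rcases min_cases (ha + ra) (hb + rb) with ⟨m4, m4'⟩ | ⟨m4, m4'⟩ <;>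
  linarith

section
variable {V : Type*} [Fintype V] {D : V → V → ℝ}

theorem isCut_wsum {ι : Type} [Fintype ι] (w : ι → ℝ) (hw : ∀ i, 0 ≤ w i) (f : ι → V → ℝ) :
    IsCut (fun x y => ∑ i, w i * |f i x - f i y|) :=
  IsCut.sum Finset.univ w (fun i x y => |f i x - f i y|) (fun i _ => hw i)
    (fun i _ => isCut_abs_sub (f i))

theorem isCut_wsum_max {ι : Type} [Fintype ι] (w : ι → ℝ) (hw : ∀ i, 0 ≤ w i) (h : V → ℝ)
    (f : ι → V → ℝ) :
    IsCut (fun x y => ∑ i, w i * max |h x - h y| |f i x - f i y|) :=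
  IsCut.sum Finset.univ w (fun i x y => max |h x - h y| |f i x - f i y|) (fun i _ => hw i)
    (fun i _ => isCut_max h (f i))

/-- A component of the tight part: line through `u` combined with the distance to `{u,v}`. -/
theorem tight_line (hD : IsPM D) (u v : V) :
    ∃ T : V → V → ℝ, IsCut T ∧ T u v = D u v ∧ (∀ x y, T x y ≤ D x y) ∧
      (∀ x y, min (D u x) (D u y) ≤ T u x + T u y - T x y) := by
  set c := D u v with hc
  have hc0 : 0 ≤ c := hD.nonneg u v
  set hU : V → ℝ := fun x => min (D u x) c with hhU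
  set r : V → ℝ := fun x => min (D u x) (D v x) with hr
  set T3 : V → V → ℝ := fun x y => max |hU x - hU y| |r x - r y| with hT3
  have cT3 : IsCut T3 := isCut_max hU r
  have lU : ∀ x y, |hU x - hU y| ≤ D x y := fun x y =>
    abs_min_sub_min_le (hD.abs_sub_le u x y) (by simpa using hD.nonneg x y)
  have lr : ∀ x y, |r x - r y| ≤ D x y := fun x y =>
    abs_min_sub_min_le (hD.abs_sub_le u x y) (hD.abs_sub_le v x y)
  have bT3 : ∀ x y, T3 x y ≤ D x y := fun x y => max_le (lU x y) (lr x y)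
  have vUu : hU u = 0 := by simp only [hhU, hD.self]; exact min_eq_left hc0
  have vUv : hU v = c := by simp only [hhU]; exact min_eq_left (le_refl c)
  have vru : r u = 0 := by simp only [hr, hD.self]; exact min_eq_left (hD.nonneg v u)
  have vrv : r v = 0 := by simp only [hr, hD.self]; exact min_eq_right (hD.nonneg u v)
  have eT3 : T3 u v = c := by
    simp only [hT3, vUu, vUv, vru, vrv]
    rw [zero_sub, abs_neg, abs_of_nonneg hc0]; simpa using hc0
  have hr0 : ∀ x, 0 ≤ r x := fun x => le_min (hD.nonneg u x) (hD.nonneg v x)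
  have hU0 : ∀ x, 0 ≤ hU x := fun x => le_min (hD.nonneg u x) hc0
  have sU : ∀ x, D u x ≤ hU x + r x := by
    intro x
    simp only [hhU, hr]
    have h1 := hD.tri u v x
    have h2 := hD.nonneg v x
    rcases min_cases (D u x) c with ⟨e, e'⟩ | ⟨e, e'⟩ <;>
      rcases min_cases (D u x) (D v x) with ⟨g, g'⟩ | ⟨g, g'⟩ <;> linarith [hD.nonneg u x]
  refine ⟨T3, cT3, eT3, bT3, ?_⟩
  intro x y
  have := gromov_aux (hU0 x) (hr0 x) (hU0 y) (hr0 y)
  simp only [hT3, vUu, vru]
  exact (min_le_min (sU x) (sU y)).trans this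

/-- The component of the tight part coming from the random Lipschitz functions. -/
theorem tight_LC (hD : IsPM D) {X : Set V} {u v : V} (hu : u ∈ X) (hv : v ∈ X) {κ : ℝ}
    (hκ : 1 ≤ κ) (h1 : LC D X κ) :
    ∃ T : V → V → ℝ, IsCut T ∧ T u v = D u v ∧ (∀ x ∈ X, ∀ y ∈ X, T x y ≤ D x y) ∧
      (∀ x ∈ X, ∀ y ∈ X, D x y ≤ κ * T x y) := by
  obtain ⟨ι, _, w, f, hw, hw1, hf, hfκ⟩ := h1
  set c := D u v with hc
  have hc0 : 0 ≤ c := hD.nonneg u v
  set hU : V → ℝ := fun x => min (D u x) c with hhU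
  set T4 : V → V → ℝ := fun x y => ∑ i, w i * max |hU x - hU y| |f i x - f i y| with hT4
  have cT4 : IsCut T4 := isCut_wsum_max w hw hU f
  have lU : ∀ x y, |hU x - hU y| ≤ D x y := fun x y =>
    abs_min_sub_min_le (hD.abs_sub_le u x y) (by simpa using hD.nonneg x y)
  have vUu : hU u = 0 := by simp only [hhU, hD.self]; exact min_eq_left hc0
  have vUv : hU v = c := by simp only [hhU]; exact min_eq_left (le_refl c)
  refine ⟨T4, cT4, ?_, ?_, ?_⟩
  · have : ∀ i, w i * max |hU u - hU v| |f i u - f i v| = w i * c := by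
      intro i
      rw [vUu, vUv, zero_sub, abs_neg, abs_of_nonneg hc0, max_eq_left (hf i u hu v hv)]
    simp only [hT4]
    rw [Finset.sum_congr rfl (fun i _ => this i), ← Finset.sum_mul, hw1, one_mul]
  · intro x hx y hy
    calc T4 x y ≤ ∑ i, w i * D x y :=
          Finset.sum_le_sum (fun i _ =>
            mul_le_mul_of_nonneg_left (max_le (lU x y) (hf i x hx y hy)) (hw i))
      _ = D x y := by rw [← Finset.sum_mul, hw1, one_mul]
  · intro x hx y hy
    have h5 : ∑ i, w i * |f i x - f i y| ≤ T4 x y :=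
      Finset.sum_le_sum (fun i _ => mul_le_mul_of_nonneg_left (le_max_right _ _) (hw i))
    have h6 := hfκ x hx y hy
    nlinarith

/-- The tight part. -/
theorem tight (hD : IsPM D) {X : Set V} {u v : V} (hu : u ∈ X) (hv : v ∈ X) {κ : ℝ}
    (hκ : 1 ≤ κ) (h1 : LC D X κ) :
    ∃ T : V → V → ℝ, IsCut T ∧ T u v = D u v ∧ (∀ x ∈ X, ∀ y ∈ X, T x y ≤ D x y) ∧
      (∀ x ∈ X, ∀ y ∈ X, D x y ≤ 3 * κ * T x y) ∧
      (∀ x y, 1 / 3 * min (D u x) (D u y) ≤ T u x + T u y - T x y) ∧
      (∀ x y, 1 / 3 * min (D v x) (D v y) ≤ T v x + T v y - T x y) := by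
  obtain ⟨A, cA, eA, bA, pA⟩ := tight_line hD u v
  obtain ⟨B, cB, eB, bB, pB⟩ := tight_line hD v u
  obtain ⟨C, cC, eC, bC, lC⟩ := tight_LC hD hu hv hκ h1
  refine ⟨fun x y => 1/3 * A x y + 1/3 * B x y + 1/3 * C x y,
    ((cA.smul (by norm_num)).add (cB.smul (by norm_num))).add (cC.smul (by norm_num)),
    ?_, ?_, ?_, ?_, ?_⟩
  · have h1 := cB.symm u v
    have h2 := hD.symm u v
    simp only
    rw [eA, h1, eB, eC, ← h2]; ring
  · intro x hx y hy
    have := bA x y; have := bB x y; have := bC x hx y hy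
    simp only; linarith
  · intro x hx y hy
    have h1 := cA.nonneg x y; have h2 := cB.nonneg x y; have h3 := lC x hx y hy
    have h4 : 0 ≤ κ := by linarith
    simp only
    have h5 := mul_nonneg h4 h1
    have h6 := mul_nonneg h4 h2
    nlinarith
  · intro x y
    have h1 := pA x y
    have h2 := cB.triangle x u y
    have h3 := cC.triangle x u y
    have h4 := cB.symm x u
    have h5 := cC.symm x u
    simp only; linarith
  · intro x y
    have h1 := pB x y
    have h2 := cA.triangle x v y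
    have h3 := cC.triangle x v y
    have h4 := cA.symm x v
    have h5 := cC.symm x v
    simp only; linarith

/-- the purely numerical part of the lower bound, when the pair is stretched over `{u,v}` -/
theorem lower_real {κ t d c η T N : ℝ} (hκ : 1 ≤ κ) (ht0 : 0 < t) (ht : t ≤ 1 / 2)
    (hη0 : 0 ≤ η) (hη : η < d / 4) (hlow : c - η ≤ T) (hup : d ≤ c + η) (hN : η ≤ κ * N)
    (hN0 : 0 ≤ N) :
    min t (1 / (8 * κ)) * d ≤ t * T + (1 - t) * N := by
  have hd0 : 0 ≤ d := by linarith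
  have hκ0 : 0 < κ := by linarith
  have hN2 : 1/2 * N ≤ (1 - t) * N := mul_le_mul_of_nonneg_right (by linarith) hN0
  rcases le_or_gt t (1 / (4 * κ)) with h | h
  · have bmin1 : min t (1 / (8 * κ)) * d ≤ t * d :=
      mul_le_mul_of_nonneg_right (min_le_left _ _) hd0
    have h1 : 2 * t * η ≤ 1/2 * N := by
      have h2 : t * (4 * κ) ≤ 1 := by
        rw [le_div_iff₀ (by positivity)] at h; exact h
      have h4 : t * η ≤ t * (κ * N) := mul_le_mul_of_nonneg_left hN ht0.le
      nlinarith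
    have h5 : t * (c - η) ≤ t * T := mul_le_mul_of_nonneg_left hlow ht0.le
    have h6 : t * d ≤ t * (c + η) := mul_le_mul_of_nonneg_left hup ht0.le
    nlinarith
  · have bmin2 : min t (1 / (8 * κ)) * d ≤ 1 / (8 * κ) * d :=
      mul_le_mul_of_nonneg_right (min_le_right _ _) hd0
    have h1 : d / 2 ≤ T := by linarith
    have h2 : 1 / (4 * κ) * (d / 2) ≤ t * T :=
      mul_le_mul h.le h1 (by positivity) ht0.le
    have h3 : 1 / (4 * κ) * (d / 2) = 1 / (8 * κ) * d := by
      field_simp; ring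
    have h4 : 0 ≤ (1 - t) * N := mul_nonneg (by linarith) hN0
    linarith

theorem lower_real' {κ t d T N m : ℝ} (hκ : 1 ≤ κ) (ht0 : 0 < t) (ht1 : t ≤ 1)
    (hd0 : 0 ≤ d) (hT : d ≤ 3 * κ * T) (hT0 : 0 ≤ T) (hN0 : 0 ≤ N) (hN : m ≤ κ * N)
    (h : 1 / 2 ≤ t ∨ d / 4 ≤ m) :
    min t (1 / (8 * κ)) * d ≤ t * T + (1 - t) * N := by
  have hκ0 : 0 < κ := by linarith
  have bmin2 : min t (1 / (8 * κ)) * d ≤ 1 / (8 * κ) * d :=
    mul_le_mul_of_nonneg_right (min_le_right _ _) hd0
  refine bmin2.trans ?_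
  rw [div_mul_eq_mul_div, one_mul, div_le_iff₀ (by positivity)]
  rcases le_or_gt (1/2) t with ht | ht
  · have h2 : 0 ≤ (1 - t) * N * (8 * κ) :=
      mul_nonneg (mul_nonneg (by linarith) hN0) (by positivity)
    have h1 : 1/2 * T ≤ t * T := mul_le_mul_of_nonneg_right ht hT0
    have h3 : 1/2 * T * (8 * κ) ≤ t * T * (8 * κ) := mul_le_mul_of_nonneg_right h1 (by positivity)
    have h4 : 0 ≤ κ * T := by positivity
    nlinarith
  · have hm : d / 4 ≤ m := by
      rcases h with h | h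
      · linarith
      · exact h
    have h1 : 1/2 * N ≤ (1 - t) * N := mul_le_mul_of_nonneg_right (by linarith) hN0
    have h3 : 1/2 * N * (8 * κ) ≤ (1 - t) * N * (8 * κ) :=
      mul_le_mul_of_nonneg_right h1 (by positivity)
    have h2 : 0 ≤ t * T * (8 * κ) := by positivity
    nlinarith

/-- The piece lemma. -/
theorem piece_lemma (hD : IsPM D) {X : Set V} {u v : V} (hu : u ∈ X) (hv : v ∈ X) {κ : ℝ} (hκ : 1 ≤ κ)
    (h1 : LC D X κ) (h2 : LCq D X u v κ) {t : ℝ} (ht0 : 0 < t) (ht1 : t ≤ 1) :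
    ∃ F : V → V → ℝ, IsCut F ∧ F u v = t * D u v ∧ (∀ x ∈ X, ∀ y ∈ X, F x y ≤ D x y) ∧
      (∀ x ∈ X, ∀ y ∈ X, min t (1 / (8 * κ)) * D x y ≤ F x y) ∧
      (∀ x ∈ X, ∀ y ∈ X, t / 6 * min (D u x) (D u y) ≤ (F u x + F u y - F x y) / 2) ∧
      (∀ x ∈ X, ∀ y ∈ X, t / 6 * min (D v x) (D v y) ≤ (F v x + F v y - F x y) / 2) := by
  obtain ⟨T, cT, eT, bT, lT, pu, pv⟩ := tight hD hu hv hκ h1
  obtain ⟨ι', _, w', g, hw', hw1', hg, hguv, hgκ⟩ := h2
  set N : V → V → ℝ := fun x y => ∑ i, w' i * |g i x - g i y| with hN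
  have cN : IsCut N := isCut_wsum w' hw' g
  have bN : ∀ x ∈ X, ∀ y ∈ X, N x y ≤ D x y := by
    intro x hx y hy
    calc N x y ≤ ∑ i, w' i * D x y :=
          Finset.sum_le_sum (fun i _ => mul_le_mul_of_nonneg_left (hg i x hx y hy) (hw' i))
      _ = D x y := by rw [← Finset.sum_mul, hw1', one_mul]
  have eN : N u v = 0 := by
    simp only [hN]
    refine Finset.sum_eq_zero (fun i _ => ?_)
    rw [hguv i, sub_self, abs_zero, mul_zero]
  refine ⟨fun x y => t * T x y + (1 - t) * N x y,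
    (cT.smul ht0.le).add (cN.smul (by linarith)), ?_, ?_, ?_, ?_, ?_⟩
  · simp only [eT, eN]; ring
  · intro x hx y hy
    have a1 := bT x hx y hy
    have a2 := bN x hx y hy
    have a3 := mul_le_mul_of_nonneg_left a1 ht0.le
    have a4 := mul_le_mul_of_nonneg_left a2 (sub_nonneg.mpr ht1)
    simp only; linarith
  · intro x hx y hy
    have hd0 := hD.nonneg x y
    have hT0 := cT.nonneg x y
    have hN0 := cN.nonneg x y
    have lN := hgκ x hx y hy
    by_cases hcase : 1 / 2 ≤ t ∨ D x y / 4 ≤ min (D x y)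
        (min (D u x) (D v x) + min (D u y) (D v y))
    · exact lower_real' hκ ht0 ht1 hd0 (lT x hx y hy) hT0 hN0 lN hcase
    · push Not at hcase
      obtain ⟨ht, hm⟩ := hcase
      have hη : min (D u x) (D v x) + min (D u y) (D v y) < D x y / 4 := by
        rcases min_lt_iff.mp hm with h | h
        · linarith
        · exact h
      have hmin : min (D x y) (min (D u x) (D v x) + min (D u y) (D v y)) =
          min (D u x) (D v x) + min (D u y) (D v y) := min_eq_right (by linarith)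
      rw [hmin] at lN
      have hη0 : 0 ≤ min (D u x) (D v x) + min (D u y) (D v y) :=
        add_nonneg (le_min (hD.nonneg u x) (hD.nonneg v x))
          (le_min (hD.nonneg u y) (hD.nonneg v y))
      rcases min_cases (D u x) (D v x) with ⟨e, e'⟩ | ⟨e, e'⟩ <;>
        rcases min_cases (D u y) (D v y) with ⟨g', g''⟩ | ⟨g', g''⟩ <;>
        rw [e, g'] at lN hη hη0
      · exfalso
        have h1 := hD.tri x u y
        have h2 := hD.symm x u
        linarith
      · refine lower_real hκ ht0 ht.le hη0 hη (c := D u v) ?_ ?_ lN hN0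
        · have a1 := cT.triangle u x v
          have a2 := cT.triangle x y v
          have a3 := bT u hu x hx
          have a4 := bT v hv y hy
          have a5 := cT.symm y v
          linarith
        · have a1 := hD.tri x u y
          have a2 := hD.tri u v y
          have a3 := hD.symm x u
          linarith
      · refine lower_real hκ ht0 ht.le hη0 hη (c := D u v) ?_ ?_ lN hN0
        · have a1 := cT.triangle u y v
          have a2 := cT.triangle y x v
          have a3 := bT u hu y hy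
          have a4 := bT v hv x hx
          have a5 := cT.symm y x
          have a6 := cT.symm x v
          linarith
        · have a1 := hD.tri x v y
          have a2 := hD.tri v u y
          have a3 := hD.symm x v
          have a4 := hD.symm v u
          linarith
      · exfalso
        have h1 := hD.tri x v y
        have h2 := hD.symm x v
        linarith
  · intro x hx y hy
    have a1 := pu x y
    have a4 := cN.triangle x u y
    have s3 := cN.symm x u
    have b2 : 0 ≤ N u x + N u y - N x y := by linarith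
    have b3 := mul_le_mul_of_nonneg_left a1 ht0.le
    have b4 := mul_nonneg (sub_nonneg.mpr ht1) b2
    simp only; linarith
  · intro x hx y hy
    have a1 := pv x y
    have a4 := cN.triangle x v y
    have s3 := cN.symm x v
    have b2 : 0 ≤ N v x + N v y - N x y := by linarith
    have b3 := mul_le_mul_of_nonneg_left a1 ht0.le
    have b4 := mul_nonneg (sub_nonneg.mpr ht1) b2
    simp only; linarith

end

end Vale.Agent.P235
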